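import Vale.Agent.Lib.P097.Defs

open Complex Set Topology Filter

open scoped ComplexConjugate ContDiff

namespace Vale.Agent.P097

/-! ### real-linear algebra in `ℂ` -/

theorem solve_identity (P Q X : ℂ) :
    (((conj P * Q).im : ℝ) : ℂ) * X = -I * Q * ((conj P * X).re : ℝ) + I * P * ((conj Q * X).re : ℝ) := by
  apply Complex.ext
  · simp
    ring
  · simp
    ring

theorem eq_zero_of_basis {P Q X : ℂ} (hD : (conj P * Q).im ≠ 0) (h₁ : (conj P * X).re = 0)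
    (h₂ : (conj Q * X).re = 0) : X = 0 := by
  have := solve_identity P Q X
  rw [h₁, h₂, Complex.ofReal_zero, mul_zero, mul_zero, add_zero] at this
  have hD' : (((conj P * Q).im : ℝ) : ℂ) ≠ 0 := by exact_mod_cast hD
  exact (mul_eq_zero.1 this).resolve_left hD'

theorem exists_real_linear {P Q : ℂ} (hD : (conj P * Q).im ≠ 0) (u v : ℂ) :
    ∃ p q : ℂ, ∀ X Δ : ℂ, (conj P * X).re = -(conj Δ * u).re → (conj Q * X).re = -(conj Δ * v).re →
      X = p * Δ + q * conj Δ := by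
  have hD' : (((conj P * Q).im : ℝ) : ℂ) ≠ 0 := by exact_mod_cast hD
  refine ⟨(I * Q * conj u - I * P * conj v) / (2 * ((conj P * Q).im : ℝ)),
    (I * Q * u - I * P * v) / (2 * ((conj P * Q).im : ℝ)), ?_⟩
  intro X Δ h₁ h₂
  have key := solve_identity P Q X
  rw [h₁, h₂] at key
  generalize (((conj P * Q).im : ℝ) : ℂ) = D at *
  have r : ∀ w : ℂ, (((conj Δ * w).re : ℝ) : ℂ) = (conj Δ * w + Δ * conj w) / 2 := by
    intro w
    rw [Complex.re_eq_add_conj]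
    simp
  push_cast [r] at key
  apply mul_left_cancel₀ hD'
  rw [key]
  field_simp
  ring

theorem eq_zero_of_two {c d P Q : ℂ} (hD : (conj P * Q).im ≠ 0) (h₁ : c * P + d * conj P = 0)
    (h₂ : c * Q + d * conj Q = 0) : c = 0 ∧ d = 0 := by
  have hD' : conj P * Q - P * conj Q ≠ 0 := by
    intro h0
    apply hD
    have := congrArg Complex.im h0
    simp only [sub_im, mul_im, conj_re, conj_im, zero_im] at this ⊢
    linarith
  constructor
  · have : c * (conj P * Q - P * conj Q) = 0 := by linear_combination conj P * h₂ - conj Q * h₁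
    exact (mul_eq_zero.1 this).resolve_right hD'
  · have : d * (conj P * Q - P * conj Q) = 0 := by linear_combination Q * h₁ - P * h₂
    exact (mul_eq_zero.1 this).resolve_right hD'

theorem adjoint_match {p q p' q' A₁ A₂ B₁ B₂ : ℂ} (hA : (conj A₁ * A₂).im ≠ 0)
    (hB : (conj B₁ * B₂).im ≠ 0)
    (h : ∀ A B : ℂ, (A = A₁ ∨ A = A₂) → (B = B₁ ∨ B = B₂) →
      (conj B * (p * A + q * conj A)).re + (conj A * (p' * B + q' * conj B)).re = 0) :
    p' = -conj p ∧ q' = -q := by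
  have key : ∀ A B : ℂ, (A = A₁ ∨ A = A₂) → (B = B₁ ∨ B = B₂) →
      (conj A * ((conj p + p') * B + (q + q') * conj B)).re = 0 := by
    intro A B hA hB
    have := h A B hA hB
    simp only [mul_re, mul_im, add_re, add_im, conj_re, conj_im] at this ⊢
    linarith
  have k₁ : (conj p + p') * B₁ + (q + q') * conj B₁ = 0 :=
    eq_zero_of_basis hA (key _ _ (Or.inl rfl) (Or.inl rfl)) (key _ _ (Or.inr rfl) (Or.inl rfl))
  have k₂ : (conj p + p') * B₂ + (q + q') * conj B₂ = 0 :=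
    eq_zero_of_basis hA (key _ _ (Or.inl rfl) (Or.inr rfl)) (key _ _ (Or.inr rfl) (Or.inr rfl))
  obtain ⟨e₁, e₂⟩ := eq_zero_of_two hB k₁ k₂
  exact ⟨by linear_combination e₁, by linear_combination e₂⟩

/-- The mixed second difference of the chord identity. -/
theorem mixed {γ a b : ℝ → ℂ} {s₁ s₁' s₂ s₂' : ℝ}
    (h₁₁ : (conj (γ s₂ - γ s₁) * (a s₁ - b s₂)).re = 0)
    (h₁₂ : (conj (γ s₂' - γ s₁) * (a s₁ - b s₂')).re = 0)
    (h₂₁ : (conj (γ s₂ - γ s₁') * (a s₁' - b s₂)).re = 0)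
    (h₂₂ : (conj (γ s₂' - γ s₁') * (a s₁' - b s₂')).re = 0) :
    (conj (γ s₂ - γ s₂') * (a s₁ - a s₁')).re + (conj (γ s₁ - γ s₁') * (b s₂ - b s₂')).re = 0 := by
  simp only [mul_re, sub_re, sub_im, conj_re, conj_im] at *
  linarith

/-- the mixed difference identity on a set `J` of parameters. -/
def Mix (γ a b : ℝ → ℂ) (J : Set ℝ) : Prop :=
  ∀ s₁ s₁' s₂ s₂', s₁ ∈ J → s₁' ∈ J → s₂ ∈ J → s₂' ∈ J →
      s₁ < s₂ → s₁ < s₂' → s₁' < s₂ → s₁' < s₂' →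
      (conj (γ s₂ - γ s₂') * (a s₁ - a s₁')).re + (conj (γ s₁ - γ s₁') * (b s₂ - b s₂')).re = 0

theorem Mix.right {γ a b : ℝ → ℂ} {J : Set ℝ} (h : Mix γ a b J) {l₁ l₂ l₃ : ℝ}
    (m₁ : l₁ ∈ J) (m₂ : l₂ ∈ J) (m₃ : l₃ ∈ J) (h₁₂ : l₁ < l₂) (h₂₃ : l₂ < l₃)
    (t : (conj (γ l₂ - γ l₁) * (γ l₃ - γ l₂)).im ≠ 0) :
    ∃ p q : ℂ, ∀ s s', s ∈ J → s' ∈ J → l₃ < s → l₃ < s' →
      b s - b s' = p * (γ s - γ s') + q * conj (γ s - γ s') := by
  obtain ⟨p, q, H⟩ := exists_real_linear t (a l₂ - a l₁) (a l₃ - a l₂)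
  refine ⟨p, q, fun s s' hs hs' ls ls' => H _ _ ?_ ?_⟩
  · have := h l₂ l₁ s s' m₂ m₁ hs hs' (by linarith) (by linarith) (by linarith) (by linarith)
    linarith
  · have := h l₃ l₂ s s' m₃ m₂ hs hs' (by linarith) (by linarith) (by linarith) (by linarith)
    linarith

theorem Mix.left {γ a b : ℝ → ℂ} {J : Set ℝ} (h : Mix γ a b J) {r₁ r₂ r₃ : ℝ}
    (m₁ : r₁ ∈ J) (m₂ : r₂ ∈ J) (m₃ : r₃ ∈ J) (h₁₂ : r₁ < r₂) (h₂₃ : r₂ < r₃)
    (t : (conj (γ r₂ - γ r₁) * (γ r₃ - γ r₂)).im ≠ 0) :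
    ∃ p q : ℂ, ∀ s s', s ∈ J → s' ∈ J → s < r₁ → s' < r₁ →
      a s - a s' = p * (γ s - γ s') + q * conj (γ s - γ s') := by
  obtain ⟨p, q, H⟩ := exists_real_linear t (b r₂ - b r₁) (b r₃ - b r₂)
  refine ⟨p, q, fun s s' hs hs' ls ls' => H _ _ ?_ ?_⟩
  · have := h s s' r₂ r₁ hs hs' m₂ m₁ (by linarith) (by linarith) (by linarith) (by linarith)
    linarith
  · have := h s s' r₃ r₂ hs hs' m₃ m₂ (by linarith) (by linarith) (by linarith) (by linarith)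
    linarith

theorem Mix.match {γ a b : ℝ → ℂ} {J : Set ℝ} (h : Mix γ a b J) {x₁ x₂ x₃ y₁ y₂ y₃ : ℝ}
    (mx₁ : x₁ ∈ J) (mx₂ : x₂ ∈ J) (mx₃ : x₃ ∈ J) (my₁ : y₁ ∈ J) (my₂ : y₂ ∈ J) (my₃ : y₃ ∈ J)
    (x₁₂ : x₁ < x₂) (x₂₃ : x₂ < x₃) (xy : x₃ < y₁) (y₁₂ : y₁ < y₂) (y₂₃ : y₂ < y₃)
    (tx : (conj (γ x₂ - γ x₁) * (γ x₃ - γ x₂)).im ≠ 0)
    (ty : (conj (γ y₂ - γ y₁) * (γ y₃ - γ y₂)).im ≠ 0) {p q p' q' : ℂ}
    (Ha : ∀ s s', s ∈ J → s' ∈ J → s < y₁ → s' < y₁ →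
      a s - a s' = p * (γ s - γ s') + q * conj (γ s - γ s'))
    (Hb : ∀ s s', s ∈ J → s' ∈ J → x₃ < s → x₃ < s' →
      b s - b s' = p' * (γ s - γ s') + q' * conj (γ s - γ s')) :
    p' = -conj p ∧ q' = -q := by
  have gen : ∀ u u' v v', u ∈ J → u' ∈ J → v ∈ J → v' ∈ J → u < y₁ → u' < y₁ → x₃ < v →
      x₃ < v' → u < v → u < v' → u' < v → u' < v' →
      (conj (γ v - γ v') * (p * (γ u - γ u') + q * conj (γ u - γ u'))).re +
      (conj (γ u - γ u') * (p' * (γ v - γ v') + q' * conj (γ v - γ v'))).re = 0 := by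
    intro u u' v v' hu hu' hv hv' e₁ e₂ e₃ e₄ e₅ e₆ e₇ e₈
    rw [← Ha u u' hu hu' e₁ e₂, ← Hb v v' hv hv' e₃ e₄]
    exact h u u' v v' hu hu' hv hv' e₅ e₆ e₇ e₈
  apply adjoint_match tx ty
  intro A B hA hB
  rcases hA with rfl | rfl
  · rcases hB with rfl | rfl
    · exact gen x₂ x₁ y₂ y₁ mx₂ mx₁ my₂ my₁ (by linarith) (by linarith) (by linarith)
        (by linarith) (by linarith) (by linarith) (by linarith) (by linarith)
    · exact gen x₂ x₁ y₃ y₂ mx₂ mx₁ my₃ my₂ (by linarith) (by linarith) (by linarith)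
        (by linarith) (by linarith) (by linarith) (by linarith) (by linarith)
  · rcases hB with rfl | rfl
    · exact gen x₃ x₂ y₂ y₁ mx₃ mx₂ my₂ my₁ (by linarith) (by linarith) (by linarith)
        (by linarith) (by linarith) (by linarith) (by linarith) (by linarith)
    · exact gen x₃ x₂ y₃ y₂ mx₃ mx₂ my₃ my₂ (by linarith) (by linarith) (by linarith)
        (by linarith) (by linarith) (by linarith) (by linarith) (by linarith)

/-- Local form of a chord identity: `a` and `b` are real-affine functions of `γ`, with linear parts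
which are opposite adjoints of each other. -/
theorem local_affine {γ a b : ℝ → ℂ} {s₀ ε : ℝ} (hε : 0 < ε)
    (htri : ∀ s₁ s₂ s₃, s₁ ∈ Ioo (s₀ - ε) (s₀ + ε) → s₂ ∈ Ioo (s₀ - ε) (s₀ + ε) →
        s₃ ∈ Ioo (s₀ - ε) (s₀ + ε) → s₁ < s₂ → s₂ < s₃ →
        0 < (conj (γ s₂ - γ s₁) * (γ s₃ - γ s₂)).im)
    (hid : ∀ s₁ s₂, s₁ ∈ Ioo (s₀ - ε) (s₀ + ε) → s₂ ∈ Ioo (s₀ - ε) (s₀ + ε) → s₁ < s₂ →
        (conj (γ s₂ - γ s₁) * (a s₁ - b s₂)).re = 0) :
    ∃ p q α β : ℂ, ∀ s ∈ Ioo (s₀ - ε / 2) (s₀ + ε / 2),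
      a s = p * γ s + q * conj (γ s) + α ∧ b s = -(conj p * γ s + q * conj (γ s)) + β := by
  have mix : Mix γ a b (Ioo (s₀ - ε) (s₀ + ε)) := by
    intro s₁ s₁' s₂ s₂' h₁ h₁' h₂ h₂' e₁ e₂ e₃ e₄
    exact mixed (hid _ _ h₁ h₂ e₁) (hid _ _ h₁ h₂' e₂) (hid _ _ h₁' h₂ e₃) (hid _ _ h₁' h₂' e₄)
  have mem : ∀ c : ℝ, -1 < c → c < 1 → s₀ + c * ε ∈ Ioo (s₀ - ε) (s₀ + ε) := by
    intro c h1 h2
    constructor <;> nlinarith
  have lt : ∀ c d : ℝ, c < d → s₀ + c * ε < s₀ + d * ε := by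
    intro c d h1
    nlinarith
  have tri : ∀ c d e : ℝ, -1 < c → c < d → d < e → e < 1 →
      (conj (γ (s₀ + d * ε) - γ (s₀ + c * ε)) * (γ (s₀ + e * ε) - γ (s₀ + d * ε))).im ≠ 0 := by
    intro c d e h1 h2 h3 h4
    exact (htri _ _ _ (mem c h1 (by linarith)) (mem d (by linarith) (by linarith))
      (mem e (by linarith) h4) (lt _ _ h2) (lt _ _ h3)).ne'
  obtain ⟨p', q', Hb⟩ := mix.right (l₁ := s₀ + (-(7 / 8)) * ε) (l₂ := s₀ + (-(6 / 8)) * ε)
    (l₃ := s₀ + (-(5 / 8)) * ε) (mem _ (by norm_num) (by norm_num))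
    (mem _ (by norm_num) (by norm_num)) (mem _ (by norm_num) (by norm_num))
    (lt _ _ (by norm_num)) (lt _ _ (by norm_num))
    (tri _ _ _ (by norm_num) (by norm_num) (by norm_num) (by norm_num))
  obtain ⟨p, q, Ha⟩ := mix.left (r₁ := s₀ + (5 / 8) * ε) (r₂ := s₀ + (6 / 8) * ε)
    (r₃ := s₀ + (7 / 8) * ε) (mem _ (by norm_num) (by norm_num))
    (mem _ (by norm_num) (by norm_num)) (mem _ (by norm_num) (by norm_num))
    (lt _ _ (by norm_num)) (lt _ _ (by norm_num))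
    (tri _ _ _ (by norm_num) (by norm_num) (by norm_num) (by norm_num))
  have match_ := mix.match (x₁ := s₀ + (-(4 / 8)) * ε) (x₂ := s₀ + (-(3 / 8)) * ε)
    (x₃ := s₀ + (-(2 / 8)) * ε) (y₁ := s₀ + (2 / 8) * ε) (y₂ := s₀ + (3 / 8) * ε)
    (y₃ := s₀ + (4 / 8) * ε) (mem _ (by norm_num) (by norm_num))
    (mem _ (by norm_num) (by norm_num)) (mem _ (by norm_num) (by norm_num))
    (mem _ (by norm_num) (by norm_num))
    (mem _ (by norm_num) (by norm_num)) (mem _ (by norm_num) (by norm_num))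
    (lt _ _ (by norm_num)) (lt _ _ (by norm_num)) (lt _ _ (by norm_num)) (lt _ _ (by norm_num))
    (lt _ _ (by norm_num))
    (tri _ _ _ (by norm_num) (by norm_num) (by norm_num) (by norm_num))
    (tri _ _ _ (by norm_num) (by norm_num) (by norm_num) (by norm_num))
    (p := p) (q := q) (p' := p') (q' := q')
    (fun s s' hs hs' h1 h2 => Ha s s' hs hs' (by nlinarith) (by nlinarith))
    (fun s s' hs hs' h1 h2 => Hb s s' hs hs' (by nlinarith) (by nlinarith))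
  refine ⟨p, q, a s₀ - (p * γ s₀ + q * conj (γ s₀)),
    b s₀ + (conj p * γ s₀ + q * conj (γ s₀)), ?_⟩
  intro s hs
  have m0 : s₀ ∈ Ioo (s₀ - ε) (s₀ + ε) := by constructor <;> linarith
  have hs' : s ∈ Ioo (s₀ - ε) (s₀ + ε) := ⟨by linarith [hs.1], by linarith [hs.2]⟩
  constructor
  · have := Ha s s₀ hs' m0 (by linarith [hs.2]) (by linarith)
    rw [map_sub] at this
    linear_combination this
  · have := Hb s s₀ hs' m0 (by linarith [hs.1]) (by linarith)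
    rw [map_sub, match_.1, match_.2] at this
    linear_combination this

end Vale.Agent.P097
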