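import Vale.Agent.Lib.P097.Basic

open Complex Set Topology Filter

open scoped ComplexConjugate ContDiff

namespace Vale.Agent.P097

variable {Ω : Set ℂ} {L : ℝ} {γ : ℝ → ℂ}

theorem velocity_add (γ : ℝ → ℂ) (s δ : ℝ) :
    velocity γ s δ + velocity γ s (-δ) = (2 * Real.cos δ : ℝ) • deriv γ s := by
  rw [velocity, velocity, ← mul_add]
  have : cexp (δ * I) + cexp (((-δ : ℝ) : ℂ) * I) = ((2 * Real.cos δ : ℝ) : ℂ) := by
    rw [Complex.exp_mul_I, Complex.exp_mul_I]
    push_cast
    rw [Complex.cos_neg, Complex.sin_neg]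
    ring
  rw [this, Complex.real_smul, mul_comm]

/-- **Backward direction** (Joachimsthal's integral). -/
theorem backward (h : IsTable Ω L γ) (hE : IsEllipse Ω) :
    ∃ (N : ℂ → ℂ) (η : ℝ), 0 < η ∧ (∃ s, N (γ s) ≠ 0) ∧
      ∀ s δ s' δ', δ < η → δ' < η → Bounce γ s δ s' δ' →
        inner ℝ (N (γ s)) (velocity γ s δ) = inner ℝ (N (γ s')) (velocity γ s' δ') := by
  obtain ⟨A, hA⟩ := hE
  set T : ℂ ≃ᵃ[ℝ] ℂ := A.symm with hT
  have hfr : ∀ s, ‖T (γ s)‖ = 1 := by
    intro s
    have h1 : γ s ∈ frontier Ω := by rw [h.frontier_eq]; exact ⟨s, rfl⟩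
    set g : ℂ ≃ₜ ℂ := (AffineEquiv.toContinuousAffineEquiv A).toHomeomorph with hg
    have hgA : ∀ z, g z = A z := fun z => rfl
    have h2 : Ω = g '' Metric.ball 0 1 := hA
    rw [h2, ← g.image_frontier, frontier_ball (0 : ℂ) one_ne_zero] at h1
    obtain ⟨z, hz, hz'⟩ := h1
    rw [← hz', hgA, hT, AffineEquiv.symm_apply_apply]
    simpa using hz
  set B : ℂ →L[ℝ] ℂ := LinearMap.toContinuousLinearMap (T.linear : ℂ →ₗ[ℝ] ℂ) with hB
  have hTB : ∀ z w, T z - T w = B (z - w) := by
    intro z w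
    exact (T.toAffineMap.linearMap_vsub z w).symm
  have hTd : ∀ s, HasDerivAt (fun s => T (γ s)) (B (deriv γ s)) s := by
    intro s
    have e : (fun s => T (γ s)) = fun s => B (γ s) + (T 0) := by
      ext s
      have := hTB (γ s) 0
      rw [sub_zero] at this
      rw [← this]; ring
    rw [e]
    exact (B.hasFDerivAt.comp_hasDerivAt s (h.hasDerivAt s)).add_const _
  have horth : ∀ s, inner ℝ (T (γ s)) (B (deriv γ s)) = 0 := by
    intro s
    have d := (hTd s).norm_sq
    have e : (fun s => ‖T (γ s)‖ ^ 2) = fun _ => 1 := by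
      ext s; rw [hfr s]; norm_num
    rw [e] at d
    have := d.unique (hasDerivAt_const s 1)
    linarith
  refine ⟨fun z => ContinuousLinearMap.adjoint B (T z), 1, one_pos, ⟨0, ?_⟩, ?_⟩
  · intro h0
    have hsurj : B (T.linear.symm (T (γ 0))) = T (γ 0) := by
      simp [hB]
    have h1 : inner ℝ (T (γ 0)) (B (T.linear.symm (T (γ 0)))) = 0 := by
      rw [← ContinuousLinearMap.adjoint_inner_left]
      have : ContinuousLinearMap.adjoint B (T (γ 0)) = 0 := h0
      rw [this, inner_zero_left]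
    rw [hsurj, real_inner_self_eq_norm_sq, hfr 0] at h1
    norm_num at h1
  · intro s δ s' δ' _ _ hb
    simp only [ContinuousLinearMap.adjoint_inner_left]
    obtain ⟨l, hl, hc⟩ := hb.chord
    -- outgoing at s' is minus incoming, modulo the tangent
    have e1 : velocity γ s' δ' = (2 * Real.cos δ' : ℝ) • deriv γ s' - velocity γ s δ := by
      rw [hb.arrival, ← velocity_add]; ring
    have e2 : inner ℝ (T (γ s')) (B (velocity γ s' δ')) =
        -inner ℝ (T (γ s')) (B (velocity γ s δ)) := by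
      rw [e1, map_sub, map_smul, inner_sub_right, inner_smul_right, horth s']
      ring
    have e3 : l • B (velocity γ s δ) = T (γ s') - T (γ s) := by
      rw [hTB, ← map_smul, hc, add_sub_cancel_left, Complex.real_smul]
    have e4 : inner ℝ (T (γ s) + T (γ s')) (l • B (velocity γ s δ)) = 0 := by
      rw [e3, add_comm, real_inner_add_sub_eq_zero_iff, hfr, hfr]
    rw [inner_smul_right, inner_add_left] at e4
    have e5 := (mul_eq_zero.1 e4).resolve_left hl.ne'
    rw [e2]
    linarith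

end Vale.Agent.P097
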