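import Vale.Agent.Lib.P097.Defs

open Complex Set Topology Filter

open scoped ComplexConjugate ContDiff

namespace Vale.Agent.P097

/-! ### elementary calculus helpers -/

theorem hasDerivAt_im_mul {γ : ℝ → ℂ} {t : ℂ} {u : ℝ} (c : ℂ) (h : HasDerivAt γ t u) :
    HasDerivAt (fun u => (c * γ u).im) (c * t).im u := by
  exact (imCLM.hasFDerivAt (x := c * γ u)).comp_hasDerivAt u (h.const_mul c)

theorem hasDerivAt_re_mul {γ : ℝ → ℂ} {t : ℂ} {u : ℝ} (c : ℂ) (h : HasDerivAt γ t u) :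
    HasDerivAt (fun u => (c * γ u).re) (c * t).re u := by
  exact (reCLM.hasFDerivAt (x := c * γ u)).comp_hasDerivAt u (h.const_mul c)

theorem strictMonoOn_of_hasDerivAt_pos {f f' : ℝ → ℝ} {D : Set ℝ} (hD : Convex ℝ D)
    (hf : ∀ x ∈ D, HasDerivAt f (f' x) x) (h : ∀ x ∈ interior D, 0 < f' x) :
    StrictMonoOn f D := by
  apply strictMonoOn_of_deriv_pos hD
  · intro x hx
    exact (hf x hx).continuousAt.continuousWithinAt
  · intro x hx
    rw [(hf x (interior_subset hx)).deriv]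
    exact h x hx

variable {Ω : Set ℂ} {L : ℝ} {γ : ℝ → ℂ}

theorem IsTable.hasDerivAt (h : IsTable Ω L γ) (s : ℝ) : HasDerivAt γ (deriv γ s) s :=
  ((h.contDiff.differentiable (by simp)) s).hasDerivAt

theorem IsTable.contDiff_deriv (h : IsTable Ω L γ) : ContDiff ℝ ∞ (deriv γ) := by
  have := h.contDiff
  rw [contDiff_infty_iff_deriv] at this
  exact this.2

theorem IsTable.contDiff_deriv2 (h : IsTable Ω L γ) : ContDiff ℝ ∞ (deriv (deriv γ)) := by
  have := h.contDiff_deriv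
  rw [contDiff_infty_iff_deriv] at this
  exact this.2

theorem IsTable.hasDerivAt2 (h : IsTable Ω L γ) (s : ℝ) :
    HasDerivAt (deriv γ) (deriv (deriv γ) s) s :=
  ((h.contDiff_deriv.differentiable (by simp)) s).hasDerivAt

theorem IsTable.conj_mul_self (h : IsTable Ω L γ) (s : ℝ) :
    conj (deriv γ s) * deriv γ s = 1 := by
  rw [← Complex.normSq_eq_conj_mul_self, Complex.normSq_eq_norm_sq, h.unit_speed s]
  simp

/-- tangents turn to the left, locally. -/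
theorem IsTable.turn (h : IsTable Ω L γ) (s₀ : ℝ) (c : ℝ) (hc : 0 < c) :
    ∃ ε > 0, (∀ a u, a ∈ Ioo (s₀ - ε) (s₀ + ε) → u ∈ Ioo (s₀ - ε) (s₀ + ε) → a < u →
      0 < (conj (deriv γ a) * deriv γ u).im) ∧
      (∀ u, u ∈ Ioo (s₀ - ε) (s₀ + ε) → ‖deriv γ u - deriv γ s₀‖ < c) := by
  have hcont : Continuous (fun p : ℝ × ℝ => (conj (deriv γ p.1) * deriv (deriv γ) p.2).im) := by
    have h1 := h.contDiff_deriv.continuous
    have h2 := h.contDiff_deriv2.continuous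
    fun_prop
  have hev : ∀ᶠ p : ℝ × ℝ in 𝓝 (s₀, s₀), 0 < (conj (deriv γ p.1) * deriv (deriv γ) p.2).im :=
    hcont.continuousAt.eventually (lt_mem_nhds (h.curvature_pos s₀))
  rw [Metric.eventually_nhds_iff] at hev
  obtain ⟨ε₁, hε₁, H₁⟩ := hev
  have hcont2 : ContinuousAt (deriv γ) s₀ := h.contDiff_deriv.continuous.continuousAt
  rw [Metric.continuousAt_iff] at hcont2
  obtain ⟨ε₂, hε₂, H₂⟩ := hcont2 c hc
  refine ⟨min ε₁ ε₂, lt_min hε₁ hε₂, ?_, ?_⟩
  · intro a u ha hu hau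
    have key : StrictMonoOn (fun u => (conj (deriv γ a) * deriv γ u).im) (Icc a u) := by
      apply strictMonoOn_of_hasDerivAt_pos (convex_Icc a u)
        (f' := fun u => (conj (deriv γ a) * deriv (deriv γ) u).im)
      · intro x _
        exact hasDerivAt_im_mul _ (h.hasDerivAt2 x)
      · intro x hx
        rw [interior_Icc] at hx
        apply H₁ (y := (a, x))
        rw [Prod.dist_eq, max_lt_iff]
        constructor
        · rw [Real.dist_eq, abs_lt]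
          constructor <;> simp only at * <;>
          linarith [ha.1, ha.2, min_le_left ε₁ ε₂]
        · rw [Real.dist_eq, abs_lt]
          constructor <;> simp only at * <;>
          linarith [ha.1, ha.2, hu.1, hu.2, hx.1, hx.2, min_le_left ε₁ ε₂]
    have := key (left_mem_Icc.2 hau.le) (right_mem_Icc.2 hau.le) hau
    simp only at this
    rw [h.conj_mul_self a] at this
    simpa using this
  · intro u hu
    have := @H₂ u (by
      rw [Real.dist_eq, abs_lt]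
      constructor <;> linarith [hu.1, hu.2, min_le_right ε₁ ε₂])
    rwa [dist_eq_norm] at this

theorem IsTable.norm_chord (h : IsTable Ω L γ) {s₀ ε c : ℝ}
    (H : ∀ u, u ∈ Ioo (s₀ - ε) (s₀ + ε) → ‖deriv γ u - deriv γ s₀‖ < c) {s₁ s₂ : ℝ}
    (h₁ : s₁ ∈ Ioo (s₀ - ε) (s₀ + ε)) (h₂ : s₂ ∈ Ioo (s₀ - ε) (s₀ + ε)) (h₁₂ : s₁ < s₂) :
    ‖(γ s₂ - γ s₁) / (s₂ - s₁ : ℝ) - deriv γ s₀‖ ≤ c := by
  have hpos : 0 < s₂ - s₁ := sub_pos.2 h₁₂
  have key := (convex_Icc s₁ s₂).norm_image_sub_le_of_norm_hasDerivWithin_le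
    (f := fun u : ℝ => γ u - u * deriv γ s₀) (f' := fun u => deriv γ u - deriv γ s₀) (C := c)
    (x := s₁) (y := s₂)
    (by
      intro x _
      have h1 := (h.hasDerivAt x)
      have h2 : HasDerivAt (fun u : ℝ => (u : ℂ) * deriv γ s₀) (1 * deriv γ s₀) x :=
        (Complex.ofRealCLM.hasDerivAt (x := x)).mul_const _
      rw [one_mul] at h2
      exact (h1.sub h2).hasDerivWithinAt)
    (by
      intro x hx
      exact (H x ⟨by linarith [h₁.1, hx.1], by linarith [h₂.2, hx.2]⟩).le)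
    (left_mem_Icc.2 h₁₂.le) (right_mem_Icc.2 h₁₂.le)
  have hne : ((s₂ - s₁ : ℝ) : ℂ) ≠ 0 := by exact_mod_cast hpos.ne'
  have e : (γ s₂ - γ s₁) / (s₂ - s₁ : ℝ) - deriv γ s₀ =
      (γ s₂ - s₂ * deriv γ s₀ - (γ s₁ - s₁ * deriv γ s₀)) / (s₂ - s₁ : ℝ) := by
    field_simp
    push_cast
    ring
  rw [e, norm_div, div_le_iff₀ (norm_pos_iff.2 hne)]
  have e2 : ‖((s₂ - s₁ : ℝ) : ℂ)‖ = ‖s₂ - s₁‖ := by
    rw [Complex.norm_real]
  rw [e2]
  exact key

theorem arg_pos_of_im_pos {z : ℂ} (hz : 0 < z.im) : 0 < arg z := by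
  rcases (Complex.arg_nonneg_iff.2 hz.le).lt_or_eq with h | h
  · exact h
  · exact absurd (Complex.arg_eq_zero_iff.1 h.symm).2 hz.ne'

/-- local package of facts about short chords. -/
theorem IsTable.local_chords (h : IsTable Ω L γ) (s₀ : ℝ) {η : ℝ} (hη : 0 < η) :
    ∃ ε > 0,
      (∀ s₁ s₂ s₃, s₁ ∈ Ioo (s₀ - ε) (s₀ + ε) → s₂ ∈ Ioo (s₀ - ε) (s₀ + ε) →
        s₃ ∈ Ioo (s₀ - ε) (s₀ + ε) → s₁ < s₂ → s₂ < s₃ →
        0 < (conj (γ s₂ - γ s₁) * (γ s₃ - γ s₂)).im) ∧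
      (∀ s₁ s₂, s₁ ∈ Ioo (s₀ - ε) (s₀ + ε) → s₂ ∈ Ioo (s₀ - ε) (s₀ + ε) → s₁ < s₂ →
        0 < (conj (γ s₂ - γ s₁) * deriv γ s₂).im ∧
        0 < (conj (deriv γ s₁) * (γ s₂ - γ s₁)).im ∧
        ∃ δ₁ δ₂, δ₁ < η ∧ δ₂ < η ∧ Bounce γ s₁ δ₁ s₂ δ₂) := by
  have hargcont : ContinuousAt arg 1 := Complex.continuousAt_arg (by simp)
  rw [Metric.continuousAt_iff] at hargcont
  obtain ⟨c₀, hc₀, Hc₀⟩ := hargcont (min η Real.pi) (lt_min hη Real.pi_pos)
  have Harg : ∀ z : ℂ, ‖z - 1‖ < c₀ → arg z < η ∧ arg z < Real.pi := by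
    intro z hz
    have := @Hc₀ z (by rwa [dist_eq_norm])
    rw [Complex.arg_one, dist_zero_right, Real.norm_eq_abs, abs_lt, lt_min_iff] at this
    exact this.2
  obtain ⟨ε, hε, H₁, H₂⟩ := h.turn s₀ (c₀ / 4) (by positivity)
  -- first monotonicity
  have M₁ : ∀ s₁ s₂ w, s₁ ∈ Ioo (s₀ - ε) (s₀ + ε) → s₂ ∈ Ioo (s₀ - ε) (s₀ + ε) →
      w ∈ Ioo (s₀ - ε) (s₀ + ε) → s₁ < s₂ → s₂ ≤ w →
      0 < (conj (γ s₂ - γ s₁) * deriv γ w).im := by
    intro s₁ s₂ w h₁ h₂ hw h₁₂ h₂w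
    have key : StrictMonoOn (fun u => (-conj (deriv γ w) * γ u).im) (Icc s₁ s₂) := by
      apply strictMonoOn_of_hasDerivAt_pos (convex_Icc s₁ s₂)
        (f' := fun u => (-conj (deriv γ w) * deriv γ u).im)
      · intro x _
        exact hasDerivAt_im_mul _ (h.hasDerivAt x)
      · intro x hx
        rw [interior_Icc] at hx
        have := H₁ x w ⟨by linarith [h₁.1, hx.1], by linarith [h₂.2, hx.2]⟩ hw
          (by linarith [hx.2])
        simp only [mul_im, conj_re, conj_im, neg_re, neg_im] at this ⊢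
        linarith
    have := key (left_mem_Icc.2 h₁₂.le) (right_mem_Icc.2 h₁₂.le) h₁₂
    simp only [mul_im, conj_re, conj_im, neg_re, neg_im, sub_re, sub_im, map_sub] at this ⊢
    linarith
  have M₂ : ∀ s₁ s₂, s₁ ∈ Ioo (s₀ - ε) (s₀ + ε) → s₂ ∈ Ioo (s₀ - ε) (s₀ + ε) → s₁ < s₂ →
      0 < (conj (deriv γ s₁) * (γ s₂ - γ s₁)).im := by
    intro s₁ s₂ h₁ h₂ h₁₂
    have key : StrictMonoOn (fun u => (conj (deriv γ s₁) * γ u).im) (Icc s₁ s₂) := by
      apply strictMonoOn_of_hasDerivAt_pos (convex_Icc s₁ s₂)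
        (f' := fun u => (conj (deriv γ s₁) * deriv γ u).im)
      · intro x _
        exact hasDerivAt_im_mul _ (h.hasDerivAt x)
      · intro x hx
        rw [interior_Icc] at hx
        exact H₁ s₁ x h₁ ⟨by linarith [h₁.1, hx.1], by linarith [h₂.2, hx.2]⟩ hx.1
    have := key (left_mem_Icc.2 h₁₂.le) (right_mem_Icc.2 h₁₂.le) h₁₂
    simp only [mul_im, conj_re, conj_im, sub_re, sub_im] at this ⊢
    linarith
  refine ⟨ε, hε, ?_, ?_⟩
  · intro s₁ s₂ s₃ h₁ h₂ h₃ h₁₂ h₂₃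
    have key : StrictMonoOn (fun u => (conj (γ s₂ - γ s₁) * γ u).im) (Icc s₂ s₃) := by
      apply strictMonoOn_of_hasDerivAt_pos (convex_Icc s₂ s₃)
        (f' := fun u => (conj (γ s₂ - γ s₁) * deriv γ u).im)
      · intro x _
        exact hasDerivAt_im_mul _ (h.hasDerivAt x)
      · intro x hx
        rw [interior_Icc] at hx
        exact M₁ s₁ s₂ x h₁ h₂ ⟨by linarith [h₂.1, hx.1], by linarith [h₃.2, hx.2]⟩ h₁₂ hx.1.le
    have := key (left_mem_Icc.2 h₂₃.le) (right_mem_Icc.2 h₂₃.le) h₂₃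
    simp only at this
    rw [mul_sub, sub_im]
    linarith
  · intro s₁ s₂ h₁ h₂ h₁₂
    have P₁ := M₁ s₁ s₂ s₂ h₁ h₂ h₂ h₁₂ le_rfl
    have P₂ := M₂ s₁ s₂ h₁ h₂ h₁₂
    refine ⟨P₁, P₂, ?_⟩
    have hpos : 0 < s₂ - s₁ := sub_pos.2 h₁₂
    have hne : ((s₂ - s₁ : ℝ) : ℂ) ≠ 0 := by exact_mod_cast hpos.ne'
    set w : ℂ := (γ s₂ - γ s₁) / (s₂ - s₁ : ℝ) with hw
    have hw' : γ s₂ - γ s₁ = (s₂ - s₁ : ℝ) * w := by
      rw [hw]; field_simp
    have hwn : ‖w - deriv γ s₀‖ ≤ c₀ / 4 := h.norm_chord H₂ h₁ h₂ h₁₂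
    have n₁ := H₂ s₁ h₁
    have n₂ := H₂ s₂ h₂
    -- the two complex numbers
    set z : ℂ := conj (deriv γ s₁) * w with hz
    set z' : ℂ := conj w * deriv γ s₂ with hz'
    have im_z : 0 < z.im := by
      have e : (conj (deriv γ s₁) * (γ s₂ - γ s₁)).im = (s₂ - s₁) * z.im := by
        rw [hw', hz, mul_left_comm, Complex.im_ofReal_mul]
      rw [e] at P₂
      exact (mul_pos_iff_of_pos_left hpos).1 P₂
    have im_z' : 0 < z'.im := by
      have e : (conj (γ s₂ - γ s₁) * deriv γ s₂).im = (s₂ - s₁) * z'.im := by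
        rw [hw', hz', map_mul, Complex.conj_ofReal, mul_assoc, Complex.im_ofReal_mul]
      rw [e] at P₁
      exact (mul_pos_iff_of_pos_left hpos).1 P₁
    have nz : ‖z - 1‖ < c₀ := by
      have e : z - 1 = conj (deriv γ s₁) * (w - deriv γ s₁) := by
        rw [mul_sub, h.conj_mul_self]
      rw [e, norm_mul, RCLike.norm_conj, h.unit_speed, one_mul]
      calc ‖w - deriv γ s₁‖ = ‖(w - deriv γ s₀) - (deriv γ s₁ - deriv γ s₀)‖ := by congr 1; ring
        _ ≤ ‖w - deriv γ s₀‖ + ‖deriv γ s₁ - deriv γ s₀‖ := norm_sub_le _ _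
        _ < c₀ := by linarith
    have nz' : ‖z' - 1‖ < c₀ := by
      have e : z' - 1 = conj (w - deriv γ s₂) * deriv γ s₂ := by
        rw [map_sub, sub_mul, h.conj_mul_self]
      rw [e, norm_mul, RCLike.norm_conj, h.unit_speed, mul_one]
      calc ‖w - deriv γ s₂‖ = ‖(w - deriv γ s₀) - (deriv γ s₂ - deriv γ s₀)‖ := by congr 1; ring
        _ ≤ ‖w - deriv γ s₀‖ + ‖deriv γ s₂ - deriv γ s₀‖ := norm_sub_le _ _
        _ < c₀ := by linarith
    have hnz : ‖z‖ = ‖w‖ := by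
      rw [hz, norm_mul, RCLike.norm_conj, h.unit_speed, one_mul]
    have hnz' : ‖z'‖ = ‖w‖ := by
      rw [hz', norm_mul, RCLike.norm_conj, h.unit_speed, mul_one]
    have hw0 : w ≠ 0 := by
      intro h0
      rw [hz, h0] at im_z
      simp at im_z
    have hwpos : 0 < ‖w‖ := norm_pos_iff.2 hw0
    have hwne : ((‖w‖ : ℝ) : ℂ) ≠ 0 := by exact_mod_cast hwpos.ne'
    have v₁ : (‖w‖ : ℂ) * velocity γ s₁ (arg z) = w := by
      have e := Complex.norm_mul_exp_arg_mul_I z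
      rw [hnz] at e
      rw [velocity, mul_left_comm, e, hz, ← mul_assoc, mul_comm (deriv γ s₁), h.conj_mul_self,
        one_mul]
    have v₂ : (‖w‖ : ℂ) * velocity γ s₂ (-arg z') = w := by
      have e := congrArg conj (Complex.norm_mul_exp_arg_mul_I z')
      rw [hnz', map_mul, Complex.conj_ofReal, ← Complex.exp_conj, map_mul, Complex.conj_ofReal,
        Complex.conj_I] at e
      rw [velocity, mul_left_comm]
      have e3 : ((-arg z' : ℝ) : ℂ) * I = (arg z' : ℂ) * -I := by push_cast; ring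
      rw [e3, e, hz', map_mul, Complex.conj_conj, mul_left_comm, mul_comm (deriv γ s₂),
        h.conj_mul_self, mul_one]
    refine ⟨arg z, arg z', (Harg z nz).1, (Harg z' nz').1, ⟨arg_pos_of_im_pos im_z,
      (Harg z nz).2, arg_pos_of_im_pos im_z', (Harg z' nz').2, ?_, ?_⟩⟩
    · refine ⟨(s₂ - s₁) * ‖w‖, by positivity, ?_⟩
      push_cast
      rw [mul_assoc, v₁]
      have := hw'
      push_cast at this
      rw [← this]; ring
    · exact mul_left_cancel₀ hwne (v₁.trans v₂.symm)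

end Vale.Agent.P097
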