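import Mathlib

/-!
# P097: the billiard in coordinates of the plane `ℝ × ℝ`
-/

open Set

open scoped ContDiff

namespace Vale.Agent.P097Coord

/-- The hypotheses of the problem on the table: `Ω` is a bounded strictly convex open set, whose
boundary is the `C^∞` simple closed curve `s ↦ (x s, y s)` of length `L`, parametrised
counterclockwise by arclength (`x'² + y'² = 1`), of positive curvature `x' y'' - y' x''`. -/
structure Table (Ω : Set (ℝ × ℝ)) (L : ℝ) (x y : ℝ → ℝ) : Prop where
  isOpen : IsOpen Ω
  isBounded : Bornology.IsBounded Ω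
  strictConvex : StrictConvex ℝ (closure Ω)
  boundary : frontier Ω = range fun s => (x s, y s)
  length_pos : 0 < L
  periodic_x : Function.Periodic x L
  periodic_y : Function.Periodic y L
  simple : InjOn (fun s => (x s, y s)) (Ico 0 L)
  smooth_x : ContDiff ℝ ∞ x
  smooth_y : ContDiff ℝ ∞ y
  arclength : ∀ s, deriv x s ^ 2 + deriv y s ^ 2 = 1
  curvature_pos : ∀ s, 0 < deriv x s * deriv (deriv y) s - deriv y s * deriv (deriv x) s

/-- The billiard map `T` sends `(s, δ)` to `(s', δ')`, `0 < δ < π`, `0 < δ' < π`: the segment, of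
length `l > 0`, from the boundary point at `s` to the boundary point at `s'` has at `s` the
direction of the tangent `(x' s, y' s)` turned by `δ`, and at `s'` the direction of the tangent
`(x' s', y' s')` turned by `-δ'`, so that the ball arriving at `s'` is reflected into the direction
of this tangent turned by `δ'`. -/
def BilliardMap (x y : ℝ → ℝ) (s δ s' δ' : ℝ) : Prop :=
  0 < δ ∧ δ < Real.pi ∧ 0 < δ' ∧ δ' < Real.pi ∧ ∃ l : ℝ, 0 < l ∧
    x s' - x s = l * (Real.cos δ * deriv x s - Real.sin δ * deriv y s) ∧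
    y s' - y s = l * (Real.cos δ * deriv y s + Real.sin δ * deriv x s) ∧
    x s' - x s = l * (Real.cos δ' * deriv x s' + Real.sin δ' * deriv y s') ∧
    y s' - y s = l * (Real.cos δ' * deriv y s' - Real.sin δ' * deriv x s')

/-- `Ω` is the inside of an ellipse (possibly a circle): for an angle `θ`, a centre `(p, q)` and
semiaxes `a, b > 0`, it is the set `X² / a² + Y² / b² < 1`, where `(X, Y)` are the coordinates of
`(u - p, v - q)` in the axes turned by `θ`. -/
def Ellipse (Ω : Set (ℝ × ℝ)) : Prop :=
  ∃ θ p q a b : ℝ, 0 < a ∧ 0 < b ∧ Ω = {z |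
    ((z.1 - p) * Real.cos θ + (z.2 - q) * Real.sin θ) ^ 2 / a ^ 2 +
      ((z.2 - q) * Real.cos θ - (z.1 - p) * Real.sin θ) ^ 2 / b ^ 2 < 1}

end Vale.Agent.P097Coord
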