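import Vale.Agent.Lib.P097.Defs

open Complex Set Topology Filter

open scoped ComplexConjugate ContDiff

namespace Vale.Agent.P097

theorem subset_of_frontier {Ω S : Set ℂ} (hΩ : IsOpen Ω) (hS : IsPreconnected S)
    (hne : (S ∩ Ω).Nonempty) (hf : Disjoint S (frontier Ω)) : S ⊆ Ω := by
  apply hS.subset_left_of_subset_union hΩ (v := (closure Ω)ᶜ) isClosed_closure.isOpen_compl
  · exact disjoint_compl_right_iff_subset.2 subset_closure
  · intro x hx
    by_cases hxc : x ∈ closure Ω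
    · left
      by_contra hxo
      exact hf.le_bot ⟨hx, ⟨hxc, fun h => hxo (interior_subset h)⟩⟩
    · right; exact hxc
  · exact hne

/-- A bounded nonempty open set of the plane whose boundary lies in a circle is a disc. -/
theorem eq_ball_of_frontier {Ω : Set ℂ} (hΩ : IsOpen Ω) (hb : Bornology.IsBounded Ω)
    (hne : Ω.Nonempty) {R : ℝ} (hf : ∀ z ∈ frontier Ω, ‖z‖ ^ 2 = R) :
    ∃ r > 0, Ω = Metric.ball 0 r := by
  have claim₁ : ∀ w ∈ Ω, ‖w‖ ^ 2 < R := by
    intro w hw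
    by_contra hcon
    push Not at hcon
    obtain ⟨e, he, hwe⟩ : ∃ e : ℂ, ‖e‖ = 1 ∧ w = ‖w‖ * e := by
      by_cases h0 : w = 0
      · exact ⟨1, by simp, by simp [h0]⟩
      · refine ⟨w / ‖w‖, ?_, ?_⟩
        · rw [norm_div, Complex.norm_real, norm_norm, div_self (norm_ne_zero_iff.2 h0)]
        · have : ((‖w‖ : ℝ) : ℂ) ≠ 0 := by exact_mod_cast norm_ne_zero_iff.2 h0
          field_simp
    set f : ℝ → ℂ := fun τ => ((‖w‖ + τ : ℝ) : ℂ) * e with hf'
    have hfc : Continuous f := by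
      simp only [hf']
      fun_prop
    have hf0 : f 0 = w := by simp only [hf', add_zero]; exact hwe.symm
    have hnorm : ∀ τ, 0 < τ → ‖f τ‖ = ‖w‖ + τ := by
      intro τ hτ
      simp only [hf', norm_mul, he, mul_one, Complex.norm_real]
      rw [Real.norm_of_nonneg (by positivity)]
    have hS : IsPreconnected (f '' Ioi 0) := isPreconnected_Ioi.image f hfc.continuousOn
    have hnear : ∃ τ > 0, f τ ∈ Ω := by
      have : f ⁻¹' Ω ∈ 𝓝 (0 : ℝ) := hfc.continuousAt.preimage_mem_nhds (by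
        rw [hf0]; exact hΩ.mem_nhds hw)
      rw [Metric.mem_nhds_iff] at this
      obtain ⟨ε, hε, hsub⟩ := this
      refine ⟨ε / 2, by positivity, hsub ?_⟩
      rw [Metric.mem_ball, dist_zero_right, Real.norm_of_nonneg (by positivity)]
      linarith
    obtain ⟨τ₀, hτ₀, hτ₀'⟩ := hnear
    have hsub : f '' Ioi 0 ⊆ Ω := by
      apply subset_of_frontier hΩ hS ⟨f τ₀, ⟨τ₀, hτ₀, rfl⟩, hτ₀'⟩
      rw [Set.disjoint_left]
      rintro _ ⟨τ, hτ, rfl⟩ hfr
      have h1 := hf _ hfr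
      rw [hnorm τ hτ] at h1
      have h2 : 0 ≤ ‖w‖ := norm_nonneg w
      have h3 : (0 : ℝ) < τ := hτ
      nlinarith
    obtain ⟨K, hK⟩ := hb.exists_norm_le
    have h1 := hK (f (|K| + 1)) (hsub ⟨|K| + 1, (show (0 : ℝ) < |K| + 1 by positivity), rfl⟩)
    rw [hnorm _ (by positivity)] at h1
    linarith [le_abs_self K, norm_nonneg w]
  obtain ⟨w₀, hw₀⟩ := hne
  have hR : 0 < R := lt_of_le_of_lt (sq_nonneg ‖w₀‖) (claim₁ w₀ hw₀)
  refine ⟨Real.sqrt R, Real.sqrt_pos.2 hR, ?_⟩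
  apply Set.Subset.antisymm
  · intro w hw
    rw [mem_ball_zero_iff]
    exact Real.lt_sqrt_of_sq_lt (claim₁ w hw)
  · apply subset_of_frontier hΩ (convex_ball (0 : ℂ) _).isPreconnected
    · exact ⟨w₀, by
        rw [mem_ball_zero_iff]
        exact Real.lt_sqrt_of_sq_lt (claim₁ w₀ hw₀), hw₀⟩
    · rw [Set.disjoint_left]
      intro z hz hfr
      have h1 := hf _ hfr
      rw [mem_ball_zero_iff] at hz
      have h2 := Real.sq_sqrt hR.le
      nlinarith [norm_nonneg z, Real.sqrt_nonneg R]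

/-- the invertible real-linear map `u ↦ m u + n ū`, `‖n‖ < m`. -/
noncomputable def realLin (m : ℝ) (n : ℂ) (h : (m : ℂ) ^ 2 - n * conj n ≠ 0) : ℂ ≃ₗ[ℝ] ℂ where
  toFun u := m * u + n * conj u
  map_add' u v := by simp only [map_add]; ring
  map_smul' c u := by
    simp only [Complex.real_smul, map_mul, Complex.conj_ofReal, RingHom.id_apply]; ring
  invFun w := (m * w - n * conj w) / ((m : ℂ) ^ 2 - n * conj n)
  left_inv u := by
    simp only [map_add, map_mul, Complex.conj_ofReal, Complex.conj_conj]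
    field_simp
    ring
  right_inv w := by
    have hc : conj ((m : ℂ) ^ 2 - n * conj n) = (m : ℂ) ^ 2 - n * conj n := by
      simp only [map_sub, map_pow, map_mul, Complex.conj_ofReal, Complex.conj_conj]; ring
    simp only [map_div₀, map_sub, map_mul, Complex.conj_ofReal, Complex.conj_conj, hc]
    have hc' : (m : ℂ) ^ 2 - conj n * n ≠ 0 := by rwa [mul_comm (conj n)]
    field_simp
    ring

/-- A bounded nonempty open set whose boundary lies on a definite conic is an ellipse. -/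
theorem isEllipse_of_quadratic {Ω : Set ℂ} (hΩ : IsOpen Ω) (hb : Bornology.IsBounded Ω)
    (hne : Ω.Nonempty) {p C : ℝ} {q α : ℂ} (hpq : ‖q‖ < p)
    (hf : ∀ z ∈ frontier Ω, p * ‖z‖ ^ 2 + (q * conj z ^ 2).re + 2 * (conj α * z).re = C) :
    IsEllipse Ω := by
  have hp : 0 < p := lt_of_le_of_lt (norm_nonneg q) hpq
  set D := p ^ 2 - ‖q‖ ^ 2 with hD
  have hDpos : 0 < D := by nlinarith [norm_nonneg q]
  have hs := Real.sq_sqrt hDpos.le
  have hs0 := Real.sqrt_pos.2 hDpos
  set m := Real.sqrt ((p + Real.sqrt D) / 2) with hm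
  have hm2 : m ^ 2 = (p + Real.sqrt D) / 2 := Real.sq_sqrt (by positivity)
  have hm0 : 0 < m := Real.sqrt_pos.2 (by positivity)
  have hmC : (m : ℂ) ≠ 0 := by exact_mod_cast hm0.ne'
  set n : ℂ := q / (2 * m) with hn
  have hnq : 2 * m * n = q := by rw [hn]; field_simp
  have hn2 : ‖n‖ ^ 2 = p - m ^ 2 := by
    have e1 : ‖n‖ = ‖q‖ / (2 * m) := by
      rw [hn, norm_div, norm_mul, Complex.norm_real, Real.norm_of_nonneg hm0.le]
      norm_num
    rw [e1, div_pow, div_eq_iff (by positivity), mul_pow, hm2]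
    nlinarith
  have hnm : n * conj n = ((p - m ^ 2 : ℝ) : ℂ) := by
    rw [Complex.mul_conj, Complex.normSq_eq_norm_sq, hn2]
  have hinv : (m : ℂ) ^ 2 - n * conj n ≠ 0 := by
    rw [hnm]
    have : (m : ℂ) ^ 2 - ((p - m ^ 2 : ℝ) : ℂ) = ((Real.sqrt D : ℝ) : ℂ) := by
      rw [← Complex.ofReal_pow, ← Complex.ofReal_sub]
      congr 1
      linarith
    rw [this]
    exact_mod_cast hs0.ne'
  -- centre
  have hDC : ((D : ℝ) : ℂ) ≠ 0 := by exact_mod_cast hDpos.ne'
  have hDq : ((D : ℝ) : ℂ) = p ^ 2 - q * conj q := by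
    rw [Complex.mul_conj, Complex.normSq_eq_norm_sq, hD]; push_cast; ring
  set z₀ : ℂ := -(p * α - q * conj α) / D with hz₀
  have hz₀' : p * z₀ + q * conj z₀ = -α := by
    rw [hz₀, map_div₀, map_neg, map_sub, map_mul, map_mul, Complex.conj_ofReal, Complex.conj_ofReal,
      Complex.conj_conj]
    field_simp
    rw [hDq]
    ring
  set T : ℂ ≃ᵃ[ℝ] ℂ := (AffineEquiv.vaddConst ℝ z₀).symm.trans (realLin m n hinv).toAffineEquiv
    with hT
  have hTz : ∀ z, T z = m * (z - z₀) + n * conj (z - z₀) := by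
    intro z
    simp [hT, realLin, vsub_eq_sub]
  have hTn : ∀ z, ‖T z‖ ^ 2 = p * ‖z‖ ^ 2 + (q * conj z ^ 2).re + 2 * (conj α * z).re +
      (p * ‖z₀‖ ^ 2 + (q * conj z₀ ^ 2).re) := by
    intro z
    have hα : α = -(p * z₀ + q * conj z₀) := by rw [hz₀']; ring
    rw [hTz, hα, ← hnq]
    have hpm : p = m ^ 2 + ‖n‖ ^ 2 := by linarith
    rw [hpm]
    simp only [← Complex.normSq_eq_norm_sq, Complex.normSq_apply]
    simp only [map_add, map_sub, map_neg, map_mul, mul_re, mul_im, add_re, add_im, sub_re, sub_im,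
      neg_re, neg_im, conj_re, conj_im, ofReal_re, ofReal_im, pow_two, re_ofNat, im_ofNat,
      Complex.conj_ofReal]
    ring
  set h : ℂ ≃ₜ ℂ := (AffineEquiv.toContinuousAffineEquiv T).toHomeomorph with hh
  have hhT : ∀ z, h z = T z := fun z => rfl
  have hfr : ∀ w ∈ frontier (h '' Ω), ‖w‖ ^ 2 = C + (p * ‖z₀‖ ^ 2 + (q * conj z₀ ^ 2).re) := by
    rw [← h.image_frontier]
    rintro _ ⟨z, hz, rfl⟩
    rw [hhT, hTn, hf z hz]
  have hbd : Bornology.IsBounded (h '' Ω) := by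
    have hc : IsCompact (closure Ω) := hb.isCompact_closure
    exact (hc.image h.continuous).isBounded.subset (image_mono subset_closure)
  obtain ⟨r, hr, hball⟩ := eq_ball_of_frontier (h.isOpenMap _ hΩ) hbd (hne.image h) hfr
  refine ⟨(LinearEquiv.smulOfNeZero ℝ ℂ r hr.ne').toAffineEquiv.trans T.symm, ?_⟩
  have e1 : (LinearEquiv.smulOfNeZero ℝ ℂ r hr.ne').toAffineEquiv '' Metric.ball (0 : ℂ) 1 =
      Metric.ball 0 r := by
    ext w
    simp only [LinearEquiv.coe_toAffineEquiv, mem_image, mem_ball_zero_iff]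
    constructor
    · rintro ⟨x, hx, rfl⟩
      change ‖r • x‖ < r
      rw [norm_smul, Real.norm_of_nonneg hr.le]
      nlinarith
    · intro hw
      refine ⟨r⁻¹ • w, ?_, ?_⟩
      · rw [norm_smul, norm_inv, Real.norm_of_nonneg hr.le, inv_mul_lt_iff₀ hr]
        linarith
      · change r • (r⁻¹ • w) = w
        rw [smul_inv_smul₀ hr.ne']
  rw [AffineEquiv.coe_trans, image_comp, e1, ← hball]
  ext z
  simp only [mem_image, exists_exists_and_eq_and, hhT]
  constructor
  · intro hz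
    exact ⟨z, hz, by simp⟩
  · rintro ⟨x, hx, rfl⟩
    simpa using hx

end Vale.Agent.P097
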