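import Vale.Agent.Lib.P097.Global
import Vale.Agent.Lib.P097.Ellipse

open Complex Set Topology Filter

open scoped ComplexConjugate ContDiff

namespace Vale.Agent.P097

variable {Ω : Set ℂ} {L : ℝ} {γ : ℝ → ℂ}

theorem IsTable.nonempty (h : IsTable Ω L γ) : Ω.Nonempty := by
  by_contra hcon
  rw [Set.not_nonempty_iff_eq_empty] at hcon
  have := h.frontier_eq
  rw [hcon, frontier_empty] at this
  exact (range_nonempty γ).ne_empty this.symm

/-- Every unit direction is, up to sign, a tangent direction. -/
theorem IsTable.exists_tangent (h : IsTable Ω L γ) {u : ℂ} (hu : ‖u‖ = 1) :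
    ∃ s, (deriv γ s) ^ 2 = u := by
  obtain ⟨e, he⟩ : ∃ e : ℂ, e ^ 2 = u := IsSepClosed.exists_pow_nat_eq u 2
  have hen : ‖e‖ = 1 := by
    have : ‖e‖ ^ 2 = 1 := by rw [← norm_pow, he, hu]
    nlinarith [norm_nonneg e]
  have hee : conj e * e = 1 := by
    rw [← Complex.normSq_eq_conj_mul_self, Complex.normSq_eq_norm_sq, hen]; simp
  -- maximise the height in the direction `I * e`
  set φ : ℝ → ℝ := fun s => (conj e * γ s).im with hφ
  have hφc : Continuous φ := by
    have := h.contDiff.continuous
    simp only [hφ]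
    fun_prop
  obtain ⟨s, -, hs⟩ := (isCompact_Icc (a := (0 : ℝ)) (b := 0 + L)).exists_isMaxOn
    (nonempty_Icc.2 (by linarith [h.length_pos])) hφc.continuousOn
  have hper : Function.Periodic φ L := by
    intro x
    simp only [hφ, h.periodic x]
  have hmax : ∀ x, φ x ≤ φ s := by
    intro x
    have : φ x ∈ φ '' Icc 0 (0 + L) := by
      rw [hper.image_Icc h.length_pos 0]; exact ⟨x, rfl⟩
    obtain ⟨y, hy, hy'⟩ := this
    rw [← hy']
    exact hs hy
  have hz : (conj e * deriv γ s).im = 0 :=
    IsLocalMax.hasDerivAt_eq_zero (Filter.Eventually.of_forall hmax)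
      (hasDerivAt_im_mul (conj e) (h.hasDerivAt s))
  have hz2 : (conj e * deriv γ s) ^ 2 = 1 := by
    have e1 : conj e * deriv γ s = ((conj e * deriv γ s).re : ℂ) := by
      apply Complex.ext
      · simp
      · rw [hz]; simp
    have e2 : ‖conj e * deriv γ s‖ = 1 := by
      rw [norm_mul, RCLike.norm_conj, hen, h.unit_speed, one_mul]
    rw [e1, Complex.norm_real, Real.norm_eq_abs] at e2
    rw [e1, ← Complex.ofReal_pow, ← sq_abs, e2]
    simp
  refine ⟨s, ?_⟩
  calc (deriv γ s) ^ 2 = (e * conj e) ^ 2 * (deriv γ s) ^ 2 := by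
        rw [mul_comm e, hee]; ring
    _ = e ^ 2 * (conj e * deriv γ s) ^ 2 := by ring
    _ = u := by rw [hz2, he, mul_one]

theorem hasDerivAt_congr' {f g : ℝ → ℝ} {f' g' s : ℝ} (h : HasDerivAt f f' s)
    (hfg : ∀ x, g x = f x) (h' : g' = f') : HasDerivAt g g' s := by
  rw [funext hfg, h']; exact h

theorem normSq_hasDerivAt (h : IsTable Ω L γ) (s : ℝ) :
    HasDerivAt (fun s => ‖γ s‖ ^ 2) (2 * (conj (γ s) * deriv γ s).re) s := by
  have h1 := hasDerivAt_re_mul 1 (h.hasDerivAt s)
  have h2 := hasDerivAt_im_mul 1 (h.hasDerivAt s)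
  simp only [one_mul] at h1 h2
  refine hasDerivAt_congr' ((h1.mul h1).add (h2.mul h2)) ?_ ?_
  · intro s
    simp only [Pi.add_apply, Pi.mul_apply]
    rw [← Complex.normSq_eq_norm_sq, Complex.normSq_apply]
  · simp only [mul_re, conj_re, conj_im]
    ring

theorem conj_hasDerivAt {f : ℝ → ℂ} {f' : ℂ} {s : ℝ} (h : HasDerivAt f f' s) :
    HasDerivAt (fun s => conj (f s)) (conj f') s :=
  (Complex.conjCLE.toContinuousLinearMap.hasFDerivAt (x := f s)).comp_hasDerivAt s h

theorem re_hasDerivAt {f : ℝ → ℂ} {f' : ℂ} {s : ℝ} (h : HasDerivAt f f' s) :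
    HasDerivAt (fun s => (f s).re) f'.re s :=
  (reCLM.hasFDerivAt (x := f s)).comp_hasDerivAt s h

theorem const_of_hasDerivAt_zero {f : ℝ → ℝ} (h : ∀ s, HasDerivAt f 0 s) (x y : ℝ) : f x = f y :=
  is_const_of_deriv_eq_zero (fun s => (h s).differentiableAt) (fun s => (h s).deriv) x y

/-- There are two independent chords. -/
theorem IsTable.exists_chords (h : IsTable Ω L γ) (X : ℂ)
    (hX : ∀ s s', (conj (γ s - γ s') * X).re = 0) : X = 0 := by
  obtain ⟨ε, hε, h₁, -⟩ := h.local_chords 0 one_pos
  have := h₁ (-(ε / 2)) 0 (ε / 2) (by constructor <;> linarith) (by constructor <;> linarith)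
    (by constructor <;> linarith) (by linarith) (by linarith)
  exact eq_zero_of_basis this.ne' (hX _ _) (hX _ _)

theorem two_mul_re' (z : ℂ) : (2 * z).re = 2 * z.re := by simp

/-- **Forward direction.** -/
theorem forward (h : IsTable Ω L γ) {N : ℂ → ℂ} {η : ℝ} (hη : 0 < η) (hN : ∃ s, N (γ s) ≠ 0)
    (H : ∀ s δ s' δ', δ < η → δ' < η → Bounce γ s δ s' δ' →
      inner ℝ (N (γ s)) (velocity γ s δ) = inner ℝ (N (γ s')) (velocity γ s' δ')) :
    IsEllipse Ω := by
  obtain ⟨p, q, α, β, rep⟩ := global_rep h hη (a := fun s => N (γ s))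
    (b := fun s => (deriv γ s) ^ 2 * conj (N (γ s)))
    (fun s₁ δ₁ s₂ δ₂ e₁ e₂ B => chord_identity h B (H s₁ δ₁ s₂ δ₂ e₁ e₂ B))
  set a : ℝ → ℂ := fun s => N (γ s) with ha
  have ra : ∀ s, a s = p * γ s + q * conj (γ s) + α := fun s => (rep s).1
  have rb : ∀ s, (deriv γ s) ^ 2 * conj (a s) = -(conj p * γ s + q * conj (γ s)) + β :=
    fun s => (rep s).2
  -- tangential and normal components
  have tan : ∀ s, (conj (deriv γ s) * (a s - (deriv γ s) ^ 2 * conj (a s))).re = 0 := by
    intro s
    have e : conj (deriv γ s) * (a s - (deriv γ s) ^ 2 * conj (a s)) =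
        conj (deriv γ s) * a s - conj (conj (deriv γ s) * a s) := by
      rw [map_mul, Complex.conj_conj]
      linear_combination (-(deriv γ s) * conj (a s)) * h.conj_mul_self s
    rw [e, sub_re, conj_re, sub_self]
  have nor : ∀ s, (-I * conj (deriv γ s) * (a s + (deriv γ s) ^ 2 * conj (a s))).re = 0 := by
    intro s
    have e : -I * conj (deriv γ s) * (a s + (deriv γ s) ^ 2 * conj (a s)) =
        -I * (conj (deriv γ s) * a s + conj (conj (deriv γ s) * a s)) := by
      rw [map_mul, Complex.conj_conj]
      linear_combination (-I * (deriv γ s) * conj (a s)) * h.conj_mul_self s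
    rw [e, Complex.add_conj]
    simp
  -- first conserved quantity
  have D₁ : ∀ s, HasDerivAt (fun s => p.re * ‖γ s‖ ^ 2 + (q * conj (γ s) ^ 2).re +
      (conj (α - β) * γ s).re) 0 s := by
    intro s
    have h1 := (normSq_hasDerivAt h s).const_mul p.re
    have h2 := re_hasDerivAt (((conj_hasDerivAt (h.hasDerivAt s)).mul
      (conj_hasDerivAt (h.hasDerivAt s))).const_mul q)
    have h3 := hasDerivAt_re_mul (conj (α - β)) (h.hasDerivAt s)
    refine hasDerivAt_congr' ((h1.add h2).add h3) ?_ ?_
    · intro s
      simp only [Pi.add_apply, Pi.mul_apply, pow_two]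
    · have := tan s
      rw [rb s, ra s] at this
      simp only [mul_re, mul_im, add_re, add_im, sub_re, sub_im, neg_re, neg_im, conj_re,
        conj_im] at this ⊢
      linarith
  have D₂ : ∀ s, HasDerivAt (fun s => p.im * ‖γ s‖ ^ 2 + (I * conj (α + β) * γ s).re) 0 s := by
    intro s
    have h1 := (normSq_hasDerivAt h s).const_mul p.im
    have h3 := hasDerivAt_re_mul (I * conj (α + β)) (h.hasDerivAt s)
    refine hasDerivAt_congr' (h1.add h3) (fun s => rfl) ?_
    have := nor s
    rw [rb s, ra s] at this
    simp only [mul_re, mul_im, add_re, add_im, neg_re, neg_im, conj_re,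
      conj_im, I_re, I_im] at this ⊢
    linarith
  have C₁ := const_of_hasDerivAt_zero D₁
  have C₂ := const_of_hasDerivAt_zero D₂
  by_cases hp : p.im = 0
  · -- the normal case
    have hαβ : α + β = 0 := by
      have : -I * (α + β) = 0 := by
        apply h.exists_chords
        intro s s'
        have := C₂ s s'
        simp only [hp] at this
        simp only [mul_re, mul_im, add_re, add_im, sub_re, sub_im, neg_re, neg_im, conj_re,
          conj_im, I_re, I_im, map_sub] at this ⊢
        linarith
      simpa using this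
    have hβ : β = -α := by linear_combination hαβ
    have hpc : conj p = p := Complex.conj_eq_iff_im.2 hp
    have hpr : ((p.re : ℝ) : ℂ) = p := by
      apply Complex.ext <;> simp [hp]
    have key : ∀ s, (deriv γ s) ^ 2 * conj (a s) = -a s := by
      intro s
      rw [rb s, ra s, hβ, hpc]; ring
    -- `a` is normal
    have hre : ∀ s, (conj (deriv γ s) * a s).re = 0 := by
      intro s
      have e : conj (deriv γ s) * a s = -conj (conj (deriv γ s) * a s) := by
        rw [map_mul, Complex.conj_conj]
        linear_combination (conj (deriv γ s)) * key s - (deriv γ s * conj (a s)) *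
          h.conj_mul_self s
      have := congrArg Complex.re e
      rw [neg_re, conj_re] at this
      linarith
    have hnormal : ∀ s, a s = deriv γ s * (((conj (deriv γ s) * a s).im : ℝ) * I) := by
      intro s
      have e : conj (deriv γ s) * a s = (((conj (deriv γ s) * a s).im : ℝ) : ℂ) * I := by
        apply Complex.ext
        · rw [hre s]; simp
        · simp
      rw [← e]
      linear_combination (-a s) * h.conj_mul_self s
    have hacont : Continuous a := by
      have : a = fun s => p * γ s + q * conj (γ s) + α := funext ra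
      rw [this]
      have := h.contDiff.continuous
      fun_prop
    -- `a` never vanishes
    have hne : ∀ s, a s ≠ 0 := by
      have hclopen : IsClopen {s | a s = 0} := by
        refine ⟨isClosed_eq hacont continuous_const, ?_⟩
        rw [isOpen_iff_mem_nhds]
        intro s₀ hs₀
        have hs₀' : a s₀ = 0 := hs₀
        obtain ⟨ε, hε, -, h₂⟩ := h.local_chords s₀ hη
        filter_upwards [Ioo_mem_nhds (show s₀ - ε < s₀ by linarith)
          (show s₀ < s₀ + ε by linarith)] with s hs
        have m₀ : s₀ ∈ Ioo (s₀ - ε) (s₀ + ε) := by constructor <;> linarith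
        show a s = 0
        rcases lt_trichotomy s s₀ with hlt | heq | hgt
        · obtain ⟨-, k, δ₁, δ₂, g₁, g₂, B⟩ := h₂ s s₀ hs m₀ hlt
          have id := chord_identity h B (H _ _ _ _ g₁ g₂ B)
          change (conj (γ s₀ - γ s) * (a s - (deriv γ s₀) ^ 2 * conj (a s₀))).re = 0 at id
          rw [hs₀', map_zero, mul_zero, sub_zero, hnormal s] at id
          have e : (conj (γ s₀ - γ s) * (deriv γ s * (((conj (deriv γ s) * a s).im : ℝ) * I))).re =
              (conj (deriv γ s) * a s).im * (conj (deriv γ s) * (γ s₀ - γ s)).im := by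
            generalize (conj (deriv γ s) * a s).im = x
            simp only [mul_re, mul_im, sub_re, sub_im, conj_re, conj_im, I_re, I_im, ofReal_re,
              ofReal_im]
            ring
          rw [e] at id
          rw [hnormal s, (mul_eq_zero.1 id).resolve_right k.ne']
          simp
        · rw [heq]; exact hs₀'
        · obtain ⟨k, -, δ₁, δ₂, g₁, g₂, B⟩ := h₂ s₀ s m₀ hs hgt
          have id := chord_identity h B (H _ _ _ _ g₁ g₂ B)
          change (conj (γ s - γ s₀) * (a s₀ - (deriv γ s) ^ 2 * conj (a s))).re = 0 at id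
          rw [hs₀', key s, zero_sub, neg_neg, hnormal s] at id
          have e : (conj (γ s - γ s₀) * (deriv γ s * (((conj (deriv γ s) * a s).im : ℝ) * I))).re =
              -((conj (deriv γ s) * a s).im * (conj (γ s - γ s₀) * deriv γ s).im) := by
            generalize (conj (deriv γ s) * a s).im = x
            simp only [mul_re, mul_im, sub_re, sub_im, conj_re, conj_im, I_re, I_im, ofReal_re,
              ofReal_im]
            ring
          rw [e, neg_eq_zero] at id
          rw [hnormal s, (mul_eq_zero.1 id).resolve_right k.ne']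
          simp
      rcases isClopen_iff.1 hclopen with h0 | h0
      · intro s hs
        have : s ∈ {s | a s = 0} := hs
        rw [h0] at this
        exact this
      · obtain ⟨s, hs⟩ := hN
        have : s ∈ {s | a s = 0} := by rw [h0]; trivial
        exact absurd this hs
    -- the second fundamental form
    have hsff : ∀ s, p.re + (q * conj ((deriv γ s) ^ 2)).re =
        -((conj (deriv γ s) * a s).im * (conj (deriv γ s) * deriv (deriv γ) s).im) := by
      intro s
      have d1 : HasDerivAt a (p * deriv γ s + q * conj (deriv γ s)) s := by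
        have : a = fun s => p * γ s + q * conj (γ s) + α := funext ra
        rw [this]
        exact (((h.hasDerivAt s).const_mul p).add
          ((conj_hasDerivAt (h.hasDerivAt s)).const_mul q)).add_const α
      have d2 := re_hasDerivAt ((conj_hasDerivAt (h.hasDerivAt2 s)).mul d1)
      have d3 : HasDerivAt (fun s => (conj (deriv γ s) * a s).re) 0 s := by
        have : (fun s => (conj (deriv γ s) * a s).re) = fun _ => 0 := funext hre
        rw [this]
        exact hasDerivAt_const s 0
      have d4 := d2.unique d3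
      have hn := hnormal s
      have hcs := h.conj_mul_self s
      generalize (conj (deriv γ s) * a s).im = x at hn ⊢
      rw [hn] at d4
      rw [← hpr] at d4
      generalize deriv γ s = t at *
      generalize deriv (deriv γ) s = t' at *
      have c1 := congrArg Complex.re hcs
      simp only [mul_re, mul_im, add_re, add_im, conj_re, conj_im, I_re, I_im, ofReal_re,
        ofReal_im, one_re, pow_two] at d4 c1 ⊢
      linear_combination d4 - p.re * c1
    have hsgn : ∀ s, p.re + (q * conj ((deriv γ s) ^ 2)).re ≠ 0 := by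
      intro s h0
      rw [hsff s, neg_eq_zero] at h0
      have := (mul_eq_zero.1 h0).resolve_right (h.curvature_pos s).ne'
      apply hne s
      rw [hnormal s, this]
      simp
    have hgc : Continuous (fun s => p.re + (q * conj ((deriv γ s) ^ 2)).re) := by
      have := h.contDiff_deriv.continuous
      fun_prop
    -- extreme values
    obtain ⟨u, hu, hqu⟩ : ∃ u : ℂ, ‖u‖ = 1 ∧ q = ‖q‖ * u := by
      by_cases h0 : q = 0
      · exact ⟨1, by simp, by simp [h0]⟩
      · refine ⟨q / ‖q‖, ?_, ?_⟩
        · rw [norm_div, Complex.norm_real, norm_norm, div_self (norm_ne_zero_iff.2 h0)]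
        · have : ((‖q‖ : ℝ) : ℂ) ≠ 0 := by exact_mod_cast norm_ne_zero_iff.2 h0
          field_simp
    have huu : u * conj u = 1 := by
      rw [Complex.mul_conj, Complex.normSq_eq_norm_sq, hu]; simp
    obtain ⟨s₁, hs₁⟩ := h.exists_tangent hu
    obtain ⟨s₂, hs₂⟩ := h.exists_tangent (u := -u) (by rw [norm_neg, hu])
    have hqc : q * conj u = ((‖q‖ : ℝ) : ℂ) := by
      linear_combination (conj u) * hqu + ((‖q‖ : ℝ) : ℂ) * huu
    have v₁ : p.re + (q * conj ((deriv γ s₁) ^ 2)).re = p.re + ‖q‖ := by
      rw [hs₁, hqc, Complex.ofReal_re]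
    have v₂ : p.re + (q * conj ((deriv γ s₂) ^ 2)).re = p.re - ‖q‖ := by
      rw [hs₂, map_neg, mul_neg, hqc, neg_re, Complex.ofReal_re]
      ring
    have hC := C₁
    have e2 : conj (α - β) = 2 * conj α := by
      rw [hβ, sub_neg_eq_add, map_add]; ring
    simp only [e2] at hC
    have cases' : ‖q‖ < p.re ∨ ‖q‖ < -p.re := by
      by_contra hcon
      push Not at hcon
      have hr : (0 : ℝ) ∈ range (fun s => p.re + (q * conj ((deriv γ s) ^ 2)).re) := by
        apply mem_range_of_exists_le_of_exists_ge hgc
        · exact ⟨s₂, by rw [v₂]; linarith [hcon.1]⟩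
        · exact ⟨s₁, by rw [v₁]; linarith [hcon.2]⟩
      obtain ⟨s, hs⟩ := hr
      exact hsgn s hs
    have hf : ∀ z ∈ frontier Ω, p.re * ‖z‖ ^ 2 + (q * conj z ^ 2).re + 2 * (conj α * z).re =
        p.re * ‖γ 0‖ ^ 2 + (q * conj (γ 0) ^ 2).re + 2 * (conj α * γ 0).re := by
      rw [h.frontier_eq]
      rintro _ ⟨s, rfl⟩
      have := hC s 0
      simp only [mul_assoc, two_mul_re'] at this ⊢
      linarith
    rcases cases' with hlt | hlt
    · exact isEllipse_of_quadratic h.isOpen h.isBounded h.nonempty hlt hf
    · apply isEllipse_of_quadratic h.isOpen h.isBounded h.nonempty (p := -p.re) (q := -q)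
        (α := -α) (by rwa [norm_neg])
        (C := -(p.re * ‖γ 0‖ ^ 2 + (q * conj (γ 0) ^ 2).re + 2 * (conj α * γ 0).re))
      intro z hz
      rw [← hf z hz, map_neg]
      simp only [neg_mul, neg_re]
      ring
  · -- the circular case
    have hf : ∀ z ∈ frontier Ω, p.im * ‖z‖ ^ 2 + ((0 : ℂ) * conj z ^ 2).re +
        2 * (conj (-I * (α + β) / 2) * z).re =
        p.im * ‖γ 0‖ ^ 2 + (I * conj (α + β) * γ 0).re := by
      rw [h.frontier_eq]
      rintro _ ⟨s, rfl⟩
      rw [← C₂ s 0]
      simp only [map_div₀, map_mul, map_neg, conj_I, neg_neg, zero_mul, zero_re, add_zero]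
      have : (I * conj (α + β) * γ s).re = 2 * (I * conj (α + β) / conj 2 * γ s).re := by
        have e2 : conj (2 : ℂ) = 2 := Complex.conj_ofNat 2
        rw [e2, ← two_mul_re']
        congr 1
        field_simp
      rw [this]
    rcases lt_or_gt_of_ne hp with hlt | hlt
    · apply isEllipse_of_quadratic h.isOpen h.isBounded h.nonempty (p := -p.im) (q := 0)
        (α := -(-I * (α + β) / 2)) (by rw [norm_zero]; linarith)
        (C := -(p.im * ‖γ 0‖ ^ 2 + (I * conj (α + β) * γ 0).re))
      intro z hz
      rw [← hf z hz, map_neg]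
      simp only [neg_mul, neg_re, zero_mul, zero_re]
      ring
    · exact isEllipse_of_quadratic h.isOpen h.isBounded h.nonempty (p := p.im) (q := 0)
        (by rw [norm_zero]; exact hlt) hf

end Vale.Agent.P097
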