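import Vale.Agent.Lib.P097.Defs
import Vale.Agent.Lib.P097.Forward
import Vale.Agent.Lib.P097.Backward
import Vale.Agent.Lib.P097.CoordDefs

/-!
# P097: transfer between the plane `ℂ` and the plane `ℝ × ℝ`
-/

open Set

open scoped ContDiff ComplexConjugate

namespace Vale.Agent.P097Coord

open Vale.Agent.P097

/-- the table as a subset of `ℂ` -/
def cplx (Ω : Set (ℝ × ℝ)) : Set ℂ := {z | (z.re, z.im) ∈ Ω}

/-- the boundary curve with values in `ℂ` -/
def curve (x y : ℝ → ℝ) (s : ℝ) : ℂ := ⟨x s, y s⟩

theorem cplx_eq (Ω : Set (ℝ × ℝ)) : cplx Ω = Complex.equivRealProdCLM ⁻¹' Ω := rfl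

theorem curve_hasDerivAt {x y : ℝ → ℝ} (hx : Differentiable ℝ x) (hy : Differentiable ℝ y)
    (s : ℝ) : HasDerivAt (curve x y) (curve (deriv x) (deriv y) s) s := by
  have h1 : curve x y = fun s => (x s : ℂ) + (y s : ℂ) * Complex.I := by
    funext s
    apply Complex.ext <;> simp [curve]
  have h2 : curve (deriv x) (deriv y) s =
      ((deriv x s : ℝ) : ℂ) + ((deriv y s : ℝ) : ℂ) * Complex.I := by
    apply Complex.ext <;> simp [curve]
  rw [h1, h2]
  exact (hx s).hasDerivAt.ofReal_comp.add ((hy s).hasDerivAt.ofReal_comp.mul_const _)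

theorem curve_deriv {x y : ℝ → ℝ} (hx : Differentiable ℝ x) (hy : Differentiable ℝ y) :
    deriv (curve x y) = curve (deriv x) (deriv y) :=
  funext fun s => (curve_hasDerivAt hx hy s).deriv

variable {Ω : Set (ℝ × ℝ)} {L : ℝ} {x y : ℝ → ℝ}

theorem Table.diff_x (h : Table Ω L x y) : Differentiable ℝ x := h.smooth_x.differentiable (by simp)

theorem Table.diff_y (h : Table Ω L x y) : Differentiable ℝ y := h.smooth_y.differentiable (by simp)

theorem Table.deriv_curve (h : Table Ω L x y) :
    deriv (curve x y) = curve (deriv x) (deriv y) := curve_deriv h.diff_x h.diff_y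

theorem Table.isTable (h : Table Ω L x y) : IsTable (cplx Ω) L (curve x y) := by
  have hx2 : Differentiable ℝ (deriv x) :=
    (contDiff_infty_iff_deriv.1 h.smooth_x).2.differentiable (by simp)
  have hy2 : Differentiable ℝ (deriv y) :=
    (contDiff_infty_iff_deriv.1 h.smooth_y).2.differentiable (by simp)
  have him : cplx Ω = Complex.equivRealProdCLM.symm '' Ω := by
    rw [cplx_eq]
    exact (Complex.equivRealProdCLM.symm.image_eq_preimage_symm Ω).symm
  refine ⟨?_, ?_, ?_, ?_, h.length_pos, ?_, ?_, ?_, ?_, ?_⟩
  · rw [cplx_eq]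
    exact h.isOpen.preimage Complex.equivRealProdCLM.continuous
  · rw [him]
    exact (Complex.equivRealProdCLM.symm.lipschitz).isBounded_image h.isBounded
  · have h1 : closure (cplx Ω) = Complex.equivRealProdCLM.symm '' closure Ω := by
      rw [him]
      exact (Complex.equivRealProdCLM.symm.toHomeomorph.image_closure Ω).symm
    rw [h1]
    exact h.strictConvex.linear_image (Complex.equivRealProdCLM.symm : (ℝ × ℝ) →ₗ[ℝ] ℂ)
      Complex.equivRealProdCLM.symm.toHomeomorph.isOpenMap
  · have h1 : frontier (cplx Ω) = Complex.equivRealProdCLM ⁻¹' frontier Ω :=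
      (Complex.equivRealProdCLM.toHomeomorph.preimage_frontier Ω).symm
    rw [h1, h.boundary]
    ext z
    constructor
    · rintro ⟨s, hs⟩
      exact ⟨s, Complex.equivRealProdCLM.injective hs⟩
    · rintro ⟨s, rfl⟩
      exact ⟨s, rfl⟩
  · intro s
    apply Complex.ext
    · exact h.periodic_x s
    · exact h.periodic_y s
  · intro s hs t ht hst
    refine h.simple hs ht ?_
    exact congrArg Complex.equivRealProdCLM hst
  · exact Complex.equivRealProdCLM.symm.contDiff.comp (h.smooth_x.prodMk h.smooth_y)
  · intro s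
    rw [h.deriv_curve, ← sq_eq_sq₀ (norm_nonneg _) zero_le_one, Complex.sq_norm,
      Complex.normSq_apply]
    have := h.arclength s
    simp only [curve]
    linarith
  · intro s
    rw [h.deriv_curve, curve_deriv hx2 hy2]
    have := h.curvature_pos s
    simp only [curve, Complex.mul_im, Complex.conj_re, Complex.conj_im]
    linarith

theorem Table.velocity_eq (h : Table Ω L x y) (s δ : ℝ) : velocity (curve x y) s δ =
    ⟨Real.cos δ * deriv x s - Real.sin δ * deriv y s,
      Real.cos δ * deriv y s + Real.sin δ * deriv x s⟩ := by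
  unfold velocity
  rw [h.deriv_curve, Complex.exp_mul_I, ← Complex.ofReal_cos, ← Complex.ofReal_sin]
  apply Complex.ext
  · simp only [curve, Complex.mul_re, Complex.mul_im, Complex.add_re, Complex.add_im,
      Complex.ofReal_re, Complex.ofReal_im, Complex.I_re, Complex.I_im]
    ring
  · simp only [curve, Complex.mul_re, Complex.mul_im, Complex.add_re, Complex.add_im,
      Complex.ofReal_re, Complex.ofReal_im, Complex.I_re, Complex.I_im]
    ring

theorem Table.bounce_iff (h : Table Ω L x y) (s δ s' δ' : ℝ) :
    Bounce (curve x y) s δ s' δ' ↔ BilliardMap x y s δ s' δ' := by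
  have hneg := h.velocity_eq s' (-δ')
  rw [Real.cos_neg, Real.sin_neg] at hneg
  constructor
  · rintro ⟨h1, h2, h3, h4, ⟨l, hl, h5⟩, h6⟩
    have h7 := h5
    rw [h.velocity_eq] at h5
    rw [h6, hneg] at h7
    have e1 := congrArg Complex.re h5
    have e2 := congrArg Complex.im h5
    have e3 := congrArg Complex.re h7
    have e4 := congrArg Complex.im h7
    simp only [curve, Complex.add_re, Complex.add_im, Complex.re_ofReal_mul,
      Complex.im_ofReal_mul] at e1 e2 e3 e4
    refine ⟨h1, h2, h3, h4, l, hl, ?_, ?_, ?_, ?_⟩ <;> linarith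
  · rintro ⟨h1, h2, h3, h4, l, hl, e1, e2, e3, e4⟩
    refine ⟨h1, h2, h3, h4, ⟨l, hl, ?_⟩, ?_⟩
    · rw [h.velocity_eq]
      apply Complex.ext
      · simp only [curve, Complex.add_re, Complex.re_ofReal_mul]
        linarith
      · simp only [curve, Complex.add_im, Complex.im_ofReal_mul]
        linarith
    · rw [h.velocity_eq, hneg]
      have e5 := e1.symm.trans e3
      have e6 := e2.symm.trans e4
      have e7 := mul_left_cancel₀ hl.ne' e5
      have e8 := mul_left_cancel₀ hl.ne' e6
      apply Complex.ext
      · simp only []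
        linarith
      · simp only []
        linarith

theorem Table.exists_period (h : Table Ω L x y) {s t : ℝ} (hst : curve x y s = curve x y t) :
    ∃ k : ℤ, s = t + k * L := by
  have hT := h.isTable
  have h1 : ∀ r : ℝ, curve x y (toIcoMod h.length_pos 0 r) = curve x y r := by
    intro r
    have := hT.periodic.sub_zsmul_eq (n := toIcoDiv h.length_pos 0 r) (x := r)
    exact this
  have h2 : ∀ r : ℝ, toIcoMod h.length_pos 0 r ∈ Ico 0 L := by
    intro r
    have := toIcoMod_mem_Ico h.length_pos 0 r
    rwa [zero_add] at this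
  have h3 := hT.injOn (h2 s) (h2 t) (by rw [h1, h1, hst])
  have h4 := toIcoMod_add_toIcoDiv_zsmul h.length_pos 0 s
  have h5 := toIcoMod_add_toIcoDiv_zsmul h.length_pos 0 t
  refine ⟨toIcoDiv h.length_pos 0 s - toIcoDiv h.length_pos 0 t, ?_⟩
  rw [zsmul_eq_mul] at h4 h5
  push_cast
  linarith

theorem periodic_deriv {f : ℝ → ℝ} (hf : Function.Periodic f L) :
    Function.Periodic (deriv f) L := by
  intro s
  have h1 : (fun t => f (t + L)) = f := funext hf
  rw [← deriv_comp_add_const f L s, h1]

/-- the two forms of the first integral -/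
theorem Table.integral_iff (h : Table Ω L x y) :
    (∃ (a b : ℝ → ℝ) (η : ℝ), Function.Periodic a L ∧ Function.Periodic b L ∧
      (∃ s, a s ≠ 0 ∨ b s ≠ 0) ∧ 0 < η ∧
      ∀ s δ s' δ', δ < η → δ' < η → BilliardMap x y s δ s' δ' →
        a s' * Real.cos δ' + b s' * Real.sin δ' = a s * Real.cos δ + b s * Real.sin δ) ↔
    (∃ (N : ℂ → ℂ) (η : ℝ), 0 < η ∧ (∃ s, N (curve x y s) ≠ 0) ∧
      ∀ s δ s' δ', δ < η → δ' < η → Bounce (curve x y) s δ s' δ' →
        inner ℝ (N (curve x y s)) (velocity (curve x y) s δ) =
          inner ℝ (N (curve x y s')) (velocity (curve x y) s' δ')) := by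
  have hin : ∀ z w : ℂ, inner ℝ z w = z.re * w.re + z.im * w.im := by
    intro z w
    rw [Complex.inner]
    simp [Complex.mul_re]
    ring
  constructor
  · rintro ⟨a, b, η, ha, hb, ⟨s₀, hs₀⟩, hη, H⟩
    classical
    -- the vector with components `a`, `b` in the frame of the tangent
    let V : ℝ → ℂ := fun s =>
      ⟨a s * deriv x s - b s * deriv y s, a s * deriv y s + b s * deriv x s⟩
    have hV : ∀ s t, curve x y s = curve x y t → V s = V t := by
      intro s t hst
      obtain ⟨k, rfl⟩ := h.exists_period hst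
      have hk : ∀ {f : ℝ → ℝ}, Function.Periodic f L → f (t + k * L) = f t := by
        intro f hf
        have := (hf.int_mul k) t
        simpa using this
      simp only [V, hk ha, hk hb, hk (periodic_deriv h.periodic_x),
        hk (periodic_deriv h.periodic_y)]
    let N : ℂ → ℂ := fun z => if hz : ∃ s, curve x y s = z then V hz.choose else 0
    have hN : ∀ s, N (curve x y s) = V s := by
      intro s
      have hz : ∃ t, curve x y t = curve x y s := ⟨s, rfl⟩
      simp only [N]
      rw [dif_pos hz]
      exact hV _ _ hz.choose_spec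
    have hval : ∀ s δ, inner ℝ (N (curve x y s)) (velocity (curve x y) s δ) =
        a s * Real.cos δ + b s * Real.sin δ := by
      intro s δ
      rw [hN, h.velocity_eq, hin]
      have := h.arclength s
      simp only [V]
      linear_combination (a s * Real.cos δ + b s * Real.sin δ) * this
    refine ⟨N, η, hη, ⟨s₀, ?_⟩, ?_⟩
    · rw [hN]
      intro h0
      have e1 := congrArg Complex.re h0
      have e2 := congrArg Complex.im h0
      simp only [V, Complex.zero_re, Complex.zero_im] at e1 e2
      have h1 := h.arclength s₀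
      have e3 : a s₀ = 0 := by
        linear_combination deriv x s₀ * e1 + deriv y s₀ * e2 - a s₀ * h1
      have e4 : b s₀ = 0 := by
        linear_combination -deriv y s₀ * e1 + deriv x s₀ * e2 - b s₀ * h1
      rcases hs₀ with h2 | h2
      · exact h2 e3
      · exact h2 e4
    · intro s δ s' δ' h1 h2 h3
      rw [hval, hval]
      exact (H s δ s' δ' h1 h2 ((h.bounce_iff s δ s' δ').1 h3)).symm
  · rintro ⟨N, η, hη, ⟨s₀, hs₀⟩, H⟩
    refine ⟨fun s => (N (curve x y s)).re * deriv x s + (N (curve x y s)).im * deriv y s,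
      fun s => (N (curve x y s)).im * deriv x s - (N (curve x y s)).re * deriv y s, η,
      ?_, ?_, ⟨s₀, ?_⟩, hη, ?_⟩
    · intro s
      simp only [h.isTable.periodic s, periodic_deriv h.periodic_x s,
        periodic_deriv h.periodic_y s]
    · intro s
      simp only [h.isTable.periodic s, periodic_deriv h.periodic_x s,
        periodic_deriv h.periodic_y s]
    · by_contra hcon
      push Not at hcon
      obtain ⟨e1, e2⟩ := hcon
      apply hs₀
      have h1 := h.arclength s₀
      apply Complex.ext
      · rw [Complex.zero_re]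
        linear_combination deriv x s₀ * e1 - deriv y s₀ * e2 - (N (curve x y s₀)).re * h1
      · rw [Complex.zero_im]
        linear_combination deriv y s₀ * e1 + deriv x s₀ * e2 - (N (curve x y s₀)).im * h1
    · intro s δ s' δ' h1 h2 h3
      have h4 := H s δ s' δ' h1 h2 ((h.bounce_iff s δ s' δ').2 h3)
      rw [hin, hin, h.velocity_eq, h.velocity_eq] at h4
      simp only at h4
      linear_combination -h4

end Vale.Agent.P097Coord
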