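import Vale.Agent.Lib.P097.Defs
import Vale.Agent.Lib.P097.CoordProof

/-!
# P097: affine images of the disc and principal axes
-/

open Set

namespace Vale.Agent.P097Coord

open Vale.Agent.P097

variable {Ω : Set (ℝ × ℝ)}

theorem norm_lt_one_iff (z : ℂ) : ‖z‖ < 1 ↔ z.re ^ 2 + z.im ^ 2 < 1 := by
  have h := Complex.sq_norm z
  rw [Complex.normSq_apply] at h
  rw [← sq_lt_one_iff₀ (norm_nonneg z), h]
  constructor <;> intro h <;> linarith

theorem quad (B : ℂ →ₗ[ℝ] ℂ) (h : ℂ) : ‖B h‖ ^ 2 = ‖B 1‖ ^ 2 * h.re ^ 2 +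
    2 * ((B 1).re * (B Complex.I).re + (B 1).im * (B Complex.I).im) * h.re * h.im +
      ‖B Complex.I‖ ^ 2 * h.im ^ 2 := by
  have h1 : h = h.re • (1 : ℂ) + h.im • Complex.I := by
    apply Complex.ext <;> simp
  have h2 : B h = h.re • B 1 + h.im • B Complex.I := by
    conv_lhs => rw [h1]
    rw [map_add, map_smul, map_smul]
  rw [h2, Complex.sq_norm, Complex.sq_norm, Complex.sq_norm, Complex.normSq_apply,
    Complex.normSq_apply, Complex.normSq_apply]
  simp only [Complex.add_re, Complex.add_im, Complex.real_smul, Complex.re_ofReal_mul,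
    Complex.im_ofReal_mul]
  ring

theorem exists_axes (E F G : ℝ) : ∃ θ : ℝ,
    F * (Real.cos θ ^ 2 - Real.sin θ ^ 2) + (G - E) * (Real.cos θ * Real.sin θ) = 0 := by
  have hc : Continuous fun θ : ℝ => F * (Real.cos θ ^ 2 - Real.sin θ ^ 2) +
      (G - E) * (Real.cos θ * Real.sin θ) := by fun_prop
  have h0 : F * (Real.cos 0 ^ 2 - Real.sin 0 ^ 2) + (G - E) * (Real.cos 0 * Real.sin 0) = F := by
    simp
  have h1 : F * (Real.cos (Real.pi / 2) ^ 2 - Real.sin (Real.pi / 2) ^ 2) +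
      (G - E) * (Real.cos (Real.pi / 2) * Real.sin (Real.pi / 2)) = -F := by
    simp
  rcases le_total F 0 with hF | hF
  · exact mem_range_of_exists_le_of_exists_ge hc ⟨0, by rw [h0]; exact hF⟩
      ⟨Real.pi / 2, by rw [h1]; linarith⟩
  · exact mem_range_of_exists_le_of_exists_ge hc ⟨Real.pi / 2, by rw [h1]; linarith⟩
      ⟨0, by rw [h0]; exact hF⟩

theorem ellipse_of_isEllipse (h : IsEllipse (cplx Ω)) : Ellipse Ω := by
  obtain ⟨A, hA⟩ := h
  obtain ⟨B, hB⟩ : ∃ B : ℂ →ₗ[ℝ] ℂ, B = (A.symm : ℂ →ᵃ[ℝ] ℂ).linear := ⟨_, rfl⟩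
  have hinj : ∀ h : ℂ, B h = 0 → h = 0 := by
    intro h h0
    rw [hB] at h0
    have h1 : A.symm.linear h = 0 := h0
    exact (LinearEquiv.map_eq_zero_iff A.symm.linear).1 h1
  have hmem : ∀ w : ℂ, w ∈ cplx Ω ↔ ‖B (w - A 0)‖ < 1 := by
    intro w
    have h1 : B (w - A 0) = A.symm w := by
      rw [hB]
      have h2 := (A.symm : ℂ →ᵃ[ℝ] ℂ).linearMap_vsub w (A 0)
      simp only [vsub_eq_sub, AffineEquiv.coe_coe, AffineEquiv.symm_apply_apply, sub_zero] at h2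
      exact h2
    rw [h1, hA]
    constructor
    · rintro ⟨z, hz, rfl⟩
      rw [AffineEquiv.symm_apply_apply]
      exact mem_ball_zero_iff.1 hz
    · intro h2
      exact ⟨A.symm w, mem_ball_zero_iff.2 h2, A.apply_symm_apply w⟩
  have hq := quad B
  obtain ⟨E, hE⟩ : ∃ E, E = ‖B 1‖ ^ 2 := ⟨_, rfl⟩
  obtain ⟨G, hG⟩ : ∃ G, G = ‖B Complex.I‖ ^ 2 := ⟨_, rfl⟩
  obtain ⟨F, hF⟩ : ∃ F, F = (B 1).re * (B Complex.I).re + (B 1).im * (B Complex.I).im := ⟨_, rfl⟩
  rw [← hE, ← hG, ← hF] at hq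
  obtain ⟨θ, hθ⟩ := exists_axes E F G
  have hcs := Real.cos_sq_add_sin_sq θ
  obtain ⟨c, hc⟩ : ∃ c, c = Real.cos θ := ⟨_, rfl⟩
  obtain ⟨t, ht⟩ : ∃ t, t = Real.sin θ := ⟨_, rfl⟩
  rw [← hc, ← ht] at hθ hcs
  have hP1 : 0 < E * c ^ 2 + 2 * F * c * t + G * t ^ 2 := by
    have h1 := hq ⟨c, t⟩
    simp only at h1
    rw [← h1]
    have h2 : B ⟨c, t⟩ ≠ 0 := by
      intro h0
      have h3 := hinj _ h0
      have e1 := congrArg Complex.re h3
      have e2 := congrArg Complex.im h3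
      simp only [Complex.zero_re, Complex.zero_im] at e1 e2
      rw [e1, e2] at hcs
      norm_num at hcs
    have := norm_pos_iff.2 h2
    positivity
  have hP2 : 0 < E * t ^ 2 - 2 * F * c * t + G * c ^ 2 := by
    have h1 := hq ⟨-t, c⟩
    simp only at h1
    have h2 : B ⟨-t, c⟩ ≠ 0 := by
      intro h0
      have h3 := hinj _ h0
      have e1 := congrArg Complex.re h3
      have e2 := congrArg Complex.im h3
      simp only [Complex.zero_re, Complex.zero_im] at e1 e2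
      rw [e2, neg_eq_zero.1 e1] at hcs
      norm_num at hcs
    have h3 := norm_pos_iff.2 h2
    have h4 : 0 < ‖B ⟨-t, c⟩‖ ^ 2 := by positivity
    rw [h1] at h4
    linarith
  refine ⟨θ, (A 0).re, (A 0).im, 1 / √(E * c ^ 2 + 2 * F * c * t + G * t ^ 2),
    1 / √(E * t ^ 2 - 2 * F * c * t + G * c ^ 2), by positivity, by positivity, ?_⟩
  ext z
  have h1 : z ∈ Ω ↔ (⟨z.1, z.2⟩ : ℂ) ∈ cplx Ω := Iff.rfl
  rw [h1, hmem, ← sq_lt_one_iff₀ (norm_nonneg _), hq]
  simp only [mem_ofPred_eq, Complex.sub_re, Complex.sub_im, ← hc, ← ht]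
  obtain ⟨X, hX⟩ : ∃ X, X = z.1 - (A 0).re := ⟨_, rfl⟩
  obtain ⟨Y, hY⟩ : ∃ Y, Y = z.2 - (A 0).im := ⟨_, rfl⟩
  rw [← hX, ← hY]
  have e1 : (X * c + Y * t) ^ 2 / (1 / √(E * c ^ 2 + 2 * F * c * t + G * t ^ 2)) ^ 2 =
      (X * c + Y * t) ^ 2 * (E * c ^ 2 + 2 * F * c * t + G * t ^ 2) := by
    rw [div_pow, one_pow, Real.sq_sqrt hP1.le, div_div_eq_mul_div, div_one]
  have e2 : (Y * c - X * t) ^ 2 / (1 / √(E * t ^ 2 - 2 * F * c * t + G * c ^ 2)) ^ 2 =
      (Y * c - X * t) ^ 2 * (E * t ^ 2 - 2 * F * c * t + G * c ^ 2) := by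
    rw [div_pow, one_pow, Real.sq_sqrt hP2.le, div_div_eq_mul_div, div_one]
  have e3 : (c ^ 2 + t ^ 2) ^ 2 * (E * X ^ 2 + 2 * F * X * Y + G * Y ^ 2) =
      (X * c + Y * t) ^ 2 * (E * c ^ 2 + 2 * F * c * t + G * t ^ 2) +
        (Y * c - X * t) ^ 2 * (E * t ^ 2 - 2 * F * c * t + G * c ^ 2) +
        2 * (X * c + Y * t) * (Y * c - X * t) *
          (F * (c ^ 2 - t ^ 2) + (G - E) * (c * t)) := by
    ring
  rw [hcs, hθ] at e3
  rw [e1, e2]
  constructor <;> intro h <;> linarith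

/-- the linear map with axes in direction `θ` and semiaxes `a`, `b` -/
noncomputable def axes (θ a b : ℝ) (ha : a ≠ 0) (hb : b ≠ 0) : ℂ ≃ₗ[ℝ] ℂ where
  toFun z := ⟨a * z.re * Real.cos θ - b * z.im * Real.sin θ,
    a * z.re * Real.sin θ + b * z.im * Real.cos θ⟩
  invFun w := ⟨(w.re * Real.cos θ + w.im * Real.sin θ) / a,
    (w.im * Real.cos θ - w.re * Real.sin θ) / b⟩
  map_add' z w := by
    apply Complex.ext
    · simp only [Complex.add_re, Complex.add_im]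
      ring
    · simp only [Complex.add_re, Complex.add_im]
      ring
  map_smul' r z := by
    apply Complex.ext
    · simp only [Complex.real_smul, Complex.re_ofReal_mul, Complex.im_ofReal_mul, RingHom.id_apply]
      ring
    · simp only [Complex.real_smul, Complex.re_ofReal_mul, Complex.im_ofReal_mul, RingHom.id_apply]
      ring
  left_inv z := by
    have h := Real.cos_sq_add_sin_sq θ
    apply Complex.ext
    · simp only []
      rw [div_eq_iff ha]
      linear_combination a * z.re * h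
    · simp only []
      rw [div_eq_iff hb]
      linear_combination b * z.im * h
  right_inv w := by
    have h := Real.cos_sq_add_sin_sq θ
    apply Complex.ext
    · simp only []
      rw [mul_div_cancel₀ _ ha, mul_div_cancel₀ _ hb]
      linear_combination w.re * h
    · simp only []
      rw [mul_div_cancel₀ _ ha, mul_div_cancel₀ _ hb]
      linear_combination w.im * h

theorem isEllipse_of_ellipse (h : Ellipse Ω) : IsEllipse (cplx Ω) := by
  obtain ⟨θ, p, q, a, b, ha, hb, rfl⟩ := h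
  refine ⟨(axes θ a b ha.ne' hb.ne').toAffineEquiv.trans (AffineEquiv.constVAdd ℝ ℂ ⟨p, q⟩), ?_⟩
  have hcs := Real.cos_sq_add_sin_sq θ
  have key : ∀ w : ℂ, ((axes θ a b ha.ne' hb.ne').symm w).re =
      (w.re * Real.cos θ + w.im * Real.sin θ) / a ∧
      ((axes θ a b ha.ne' hb.ne').symm w).im =
      (w.im * Real.cos θ - w.re * Real.sin θ) / b := fun w => ⟨rfl, rfl⟩
  have hball : ∀ w : ℂ, w ∈ cplx {z : ℝ × ℝ |
      ((z.1 - p) * Real.cos θ + (z.2 - q) * Real.sin θ) ^ 2 / a ^ 2 +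
        ((z.2 - q) * Real.cos θ - (z.1 - p) * Real.sin θ) ^ 2 / b ^ 2 < 1} ↔
      ‖(axes θ a b ha.ne' hb.ne').symm (w - ⟨p, q⟩)‖ < 1 := by
    intro w
    rw [norm_lt_one_iff, (key _).1, (key _).2]
    simp only [div_pow, Complex.sub_re, Complex.sub_im]
    rfl
  ext w
  rw [hball]
  constructor
  · intro h
    refine ⟨(axes θ a b ha.ne' hb.ne').symm (w - ⟨p, q⟩), mem_ball_zero_iff.2 h, ?_⟩
    change (⟨p, q⟩ : ℂ) + (axes θ a b ha.ne' hb.ne')
      ((axes θ a b ha.ne' hb.ne').symm (w - ⟨p, q⟩)) = w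
    rw [LinearEquiv.apply_symm_apply, add_sub_cancel]
  · rintro ⟨z, hz, hzw⟩
    have h1 : (⟨p, q⟩ : ℂ) + (axes θ a b ha.ne' hb.ne') z = w := hzw
    rw [← h1, add_sub_cancel_left, LinearEquiv.symm_apply_apply]
    exact mem_ball_zero_iff.1 hz

theorem ellipse_iff : IsEllipse (cplx Ω) ↔ Ellipse Ω :=
  ⟨ellipse_of_isEllipse, isEllipse_of_ellipse⟩

end Vale.Agent.P097Coord
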