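import Mathlib

/-!
# Definitions for P097 (near-boundary Birkhoff conjecture)

The Euclidean plane is `ℂ`, viewed as a real vector space with its Euclidean norm.
-/

open Complex Set

open scoped ComplexConjugate ContDiff

namespace Vale.Agent.P097

/-- `Ω` is a billiard table: a bounded open set with strictly convex closure, whose boundary is the
`C^∞` simple closed curve `γ`, parametrised counterclockwise by arclength with period `L`, of
positive curvature. -/
structure IsTable (Ω : Set ℂ) (L : ℝ) (γ : ℝ → ℂ) : Prop where
  isOpen : IsOpen Ω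
  isBounded : Bornology.IsBounded Ω
  strictConvex : StrictConvex ℝ (closure Ω)
  frontier_eq : frontier Ω = range γ
  length_pos : 0 < L
  periodic : Function.Periodic γ L
  injOn : InjOn γ (Ico 0 L)
  contDiff : ContDiff ℝ ∞ γ
  unit_speed : ∀ s, ‖deriv γ s‖ = 1
  curvature_pos : ∀ s, 0 < (conj (deriv γ s) * deriv (deriv γ) s).im

/-- The unit vector at the boundary point `γ s` making the angle `δ` (measured counterclockwise)
with the positive tangent `γ' s`. -/
noncomputable def velocity (γ : ℝ → ℂ) (s δ : ℝ) : ℂ :=
  deriv γ s * exp (δ * I)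

/-- `Bounce γ s δ s' δ'` says that the billiard map sends `(s, δ)` to `(s', δ')`: the ball leaves
`γ s` with velocity `velocity γ s δ`, `0 < δ < π`, next meets the boundary at `γ s'`, arriving
there with the velocity `velocity γ s' (-δ')`, `0 < δ' < π`, whose mirror image in the tangent line
at `γ s'` is the new outgoing velocity `velocity γ s' δ'`. -/
structure Bounce (γ : ℝ → ℂ) (s δ s' δ' : ℝ) : Prop where
  pos : 0 < δ
  lt_pi : δ < Real.pi
  pos' : 0 < δ'
  lt_pi' : δ' < Real.pi
  chord : ∃ l : ℝ, 0 < l ∧ γ s' = γ s + l * velocity γ s δ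
  arrival : velocity γ s δ = velocity γ s' (-δ')

/-- `Ω` is (the interior of) an ellipse: the image of the open unit disc under an invertible
affine map of the plane. -/
def IsEllipse (Ω : Set ℂ) : Prop :=
  ∃ A : ℂ ≃ᵃ[ℝ] ℂ, Ω = A '' Metric.ball 0 1

end Vale.Agent.P097
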