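import Vale.Agent.Lib.P097.Basic
import Vale.Agent.Lib.P097.Algebra

open Complex Set Topology Filter

open scoped ComplexConjugate ContDiff

namespace Vale.Agent.P097

variable {Ω : Set ℂ} {L : ℝ} {γ : ℝ → ℂ}

/-- The invariance along one bounce, written with the chord. -/
theorem chord_identity (h : IsTable Ω L γ) {N : ℂ → ℂ} {s₁ δ₁ s₂ δ₂ : ℝ}
    (B : Bounce γ s₁ δ₁ s₂ δ₂)
    (H : inner ℝ (N (γ s₁)) (velocity γ s₁ δ₁) = inner ℝ (N (γ s₂)) (velocity γ s₂ δ₂)) :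
    (conj (γ s₂ - γ s₁) * (N (γ s₁) - (deriv γ s₂) ^ 2 * conj (N (γ s₂)))).re = 0 := by
  obtain ⟨l, hl, hc⟩ := B.chord
  rw [Complex.inner, Complex.inner] at H
  have hc' : γ s₂ - γ s₁ = l * velocity γ s₁ δ₁ := by rw [hc]; ring
  have e : conj (velocity γ s₁ δ₁) * (deriv γ s₂) ^ 2 = velocity γ s₂ δ₂ := by
    rw [B.arrival, velocity, velocity, map_mul, ← Complex.exp_conj]
    have e3 : conj (((-δ₂ : ℝ) : ℂ) * I) = δ₂ * I := by
      rw [map_mul, Complex.conj_ofReal, Complex.conj_I]; push_cast; ring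
    rw [e3]
    have := h.conj_mul_self s₂
    linear_combination (deriv γ s₂ * cexp (↑δ₂ * I)) * this
  rw [hc', map_mul, Complex.conj_ofReal, mul_assoc, Complex.re_ofReal_mul]
  apply mul_eq_zero_of_right
  rw [mul_sub, sub_re, ← mul_assoc, e]
  have : (conj (velocity γ s₁ δ₁) * N (γ s₁)).re = (velocity γ s₁ δ₁ * conj (N (γ s₁))).re := by
    simp only [mul_re, conj_re, conj_im]; ring
  rw [this, H]
  ring

/-- local representation, at every boundary point -/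
theorem local_rep (h : IsTable Ω L γ) {a b : ℝ → ℂ} {η : ℝ} (hη : 0 < η)
    (H : ∀ s₁ δ₁ s₂ δ₂, δ₁ < η → δ₂ < η → Bounce γ s₁ δ₁ s₂ δ₂ →
      (conj (γ s₂ - γ s₁) * (a s₁ - b s₂)).re = 0) (s₀ : ℝ) :
    ∃ P : ℂ × ℂ × ℂ × ℂ, ∀ᶠ s in 𝓝 s₀,
      a s = P.1 * γ s + P.2.1 * conj (γ s) + P.2.2.1 ∧
      b s = -(conj P.1 * γ s + P.2.1 * conj (γ s)) + P.2.2.2 := by
  obtain ⟨ε, hε, h₁, h₂⟩ := h.local_chords s₀ hη
  obtain ⟨p, q, α, β, hh⟩ := local_affine hε h₁ (a := a) (b := b) (by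
    intro s₁ s₂ m₁ m₂ m₁₂
    obtain ⟨-, -, δ₁, δ₂, hδ₁, hδ₂, B⟩ := h₂ s₁ s₂ m₁ m₂ m₁₂
    exact H _ _ _ _ hδ₁ hδ₂ B)
  refine ⟨(p, q, α, β), ?_⟩
  filter_upwards [Ioo_mem_nhds (show s₀ - ε / 2 < s₀ by linarith)
    (show s₀ < s₀ + ε / 2 by linarith)] with s hs
  exact hh s hs

theorem rep_unique (h : IsTable Ω L γ) {a b : ℝ → ℂ} {s₀ : ℝ} {P Q : ℂ × ℂ × ℂ × ℂ}
    (hP : ∀ᶠ s in 𝓝 s₀, a s = P.1 * γ s + P.2.1 * conj (γ s) + P.2.2.1 ∧
      b s = -(conj P.1 * γ s + P.2.1 * conj (γ s)) + P.2.2.2)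
    (hQ : ∀ᶠ s in 𝓝 s₀, a s = Q.1 * γ s + Q.2.1 * conj (γ s) + Q.2.2.1 ∧
      b s = -(conj Q.1 * γ s + Q.2.1 * conj (γ s)) + Q.2.2.2) : P = Q := by
  obtain ⟨ε, hε, h₁, -⟩ := h.local_chords s₀ one_pos
  have hPQ := hP.and hQ
  rw [Metric.eventually_nhds_iff] at hPQ
  obtain ⟨ε', hε', H⟩ := hPQ
  set e := min ε ε' / 4 with he
  have hmin : 0 < min ε ε' := lt_min hε hε'
  have e0 : 0 < e := by positivity
  have e1 : 2 * e < ε := by have := min_le_left ε ε'; simp only [he]; linarith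
  have e2 : 2 * e < ε' := by have := min_le_right ε ε'; simp only [he]; linarith
  have D := (h₁ s₀ (s₀ + e) (s₀ + 2 * e) (by constructor <;> linarith)
    (by constructor <;> linarith) (by constructor <;> linarith) (by linarith) (by linarith)).ne'
  have K : ∀ s, |s - s₀| < ε' → (P.1 - Q.1) * γ s + (P.2.1 - Q.2.1) * conj (γ s) +
      (P.2.2.1 - Q.2.2.1) = 0 ∧
      -(conj (P.1 - Q.1) * γ s + (P.2.1 - Q.2.1) * conj (γ s)) + (P.2.2.2 - Q.2.2.2) = 0 := by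
    intro s hs
    have := @H s (by rwa [Real.dist_eq])
    constructor
    · linear_combination this.2.1 - this.1.1
    · rw [map_sub]
      linear_combination this.2.2 - this.1.2
  have K0 := (K s₀ (by simpa using hε'))
  have K1 := (K (s₀ + e) (by rw [add_sub_cancel_left, abs_of_pos e0]; linarith))
  have K2 := (K (s₀ + 2 * e) (by rw [add_sub_cancel_left, abs_of_pos (by linarith)]; linarith))
  obtain ⟨u₁, u₂⟩ := eq_zero_of_two (c := P.1 - Q.1) (d := P.2.1 - Q.2.1) D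
    (by rw [map_sub]; linear_combination K1.1 - K0.1) (by rw [map_sub]; linear_combination K2.1 - K1.1)
  have w₁ : P.1 = Q.1 := sub_eq_zero.1 u₁
  have w₂ : P.2.1 = Q.2.1 := sub_eq_zero.1 u₂
  have w₃ : P.2.2.1 = Q.2.2.1 := by
    have := K0.1
    rw [u₁, u₂] at this
    linear_combination this
  have w₄ : P.2.2.2 = Q.2.2.2 := by
    have := K0.2
    rw [u₁, u₂] at this
    simp only [map_zero] at this
    linear_combination this
  exact Prod.ext w₁ (Prod.ext w₂ (Prod.ext w₃ w₄))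

/-- Global representation. -/
theorem global_rep (h : IsTable Ω L γ) {a b : ℝ → ℂ} {η : ℝ} (hη : 0 < η)
    (H : ∀ s₁ δ₁ s₂ δ₂, δ₁ < η → δ₂ < η → Bounce γ s₁ δ₁ s₂ δ₂ →
      (conj (γ s₂ - γ s₁) * (a s₁ - b s₂)).re = 0) :
    ∃ p q α β : ℂ, ∀ s, a s = p * γ s + q * conj (γ s) + α ∧
      b s = -(conj p * γ s + q * conj (γ s)) + β := by
  choose P hP using local_rep h hη H
  have hloc : IsLocallyConstant P := by
    rw [IsLocallyConstant.iff_eventually_eq]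
    intro s₀
    have := (hP s₀).eventually_nhds
    filter_upwards [this] with s hs
    exact rep_unique h (hP s) hs
  refine ⟨(P 0).1, (P 0).2.1, (P 0).2.2.1, (P 0).2.2.2, fun s => ?_⟩
  have := (hP s).self_of_nhds
  rwa [hloc.apply_eq_of_preconnectedSpace s 0] at this

end Vale.Agent.P097
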